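/-
Row 291 (S0539), BOX:TOP-DICT#geo (helper172).
Geometry half of the dictionary between the frozen definitions of `Def_0467`
(`triPos`, `sqDist`, `hexFace`, `triAdj`, `faceRegion`, `IsInsideApprox`) and the lattice objects
of the paper.  Every statement is closed: it only speaks about the frozen definitions.  Prefix `hg_`.

Part A: the faces.  `hexFace δ u` is the regular hexagon given by six inequalities, it contains the
disk of radius `δ/2` and lies in the disk of radius `δ/√3`, the faces cover the plane, two faces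
meet iff they are equal or adjacent, overlaps are null, the family is locally finite.
-/
import Claimed.Agent.R291.Defs.Frozen

set_option autoImplicit false
open Claims.C0467 MeasureTheory Filter Topology Set

namespace Claimed.Agent.R291

/-! ## A.0 the quadratic form of the triangular lattice -/

/-- an integer is at most its square, in absolute value; real form. -/
theorem hg_int_mul_le {t P : ℝ} (hP : |P| ≤ t) (p : ℤ) : (p : ℝ) * P ≤ t * (p : ℝ) ^ 2 := by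
  have ht : 0 ≤ t := (abs_nonneg P).trans hP
  obtain ⟨h1, h2⟩ := abs_le.1 hP
  rcases lt_trichotomy p 0 with hp | hp | hp
  · have hp' : (p : ℝ) ≤ -1 := by exact_mod_cast Int.le_sub_one_of_lt hp
    nlinarith [mul_nonneg ht (by linarith : (0:ℝ) ≤ -(p:ℝ) - 1),
      mul_nonneg (by linarith : (0:ℝ) ≤ -(p:ℝ)) (by linarith : (0:ℝ) ≤ t + P),
      mul_nonneg (mul_nonneg ht (by linarith : (0:ℝ) ≤ -(p:ℝ))) (by linarith : (0:ℝ) ≤ -(p:ℝ) - 1)]
  · subst hp; simp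
  · have hp' : (1 : ℝ) ≤ p := by exact_mod_cast hp
    nlinarith [mul_nonneg (by linarith : (0:ℝ) ≤ (p:ℝ)) (by linarith : (0:ℝ) ≤ t - P),
      mul_nonneg (mul_nonneg ht (by linarith : (0:ℝ) ≤ (p:ℝ))) (by linarith : (0:ℝ) ≤ (p:ℝ) - 1)]

/-- the six inequalities imply all the others. -/
theorem hg_six_imp_all {t A B : ℝ} (hA : |A| ≤ t) (hB : |B| ≤ t) (hAB : |A - B| ≤ t) (m n : ℤ) :
    (m : ℝ) * A + (n : ℝ) * B ≤ t * ((m : ℝ) ^ 2 + m * n + (n : ℝ) ^ 2) := by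
  have ht : 0 ≤ t := (abs_nonneg A).trans hA
  have h1 := hg_int_mul_le hA m
  have h2 := hg_int_mul_le hB n
  have h3 := hg_int_mul_le hAB m
  have h4 := hg_int_mul_le hB (m + n)
  have h5 := hg_int_mul_le hA (m + n)
  have h6 := hg_int_mul_le hAB (-n)
  push_cast at h4 h5 h6
  by_cases c1 : 0 ≤ (m : ℝ) * n
  · nlinarith [mul_nonneg ht c1]
  by_cases c2 : (m : ℝ) * (m + n) ≤ 0
  · nlinarith [mul_nonneg ht (by linarith : (0:ℝ) ≤ -((m : ℝ) * (m + n)))]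
  by_cases c3 : (n : ℝ) * (m + n) ≤ 0
  · nlinarith [mul_nonneg ht (by linarith : (0:ℝ) ≤ -((n : ℝ) * (m + n)))]
  exfalso
  push Not at c1 c2 c3
  nlinarith [mul_pos c2 c3, mul_self_nonneg ((m : ℝ) + n), mul_nonneg (mul_self_nonneg ((m : ℝ) + n)) (by linarith : (0:ℝ) ≤ -((m:ℝ) * n))]

/-- positivity of the quadratic form on nonzero integer vectors. -/
theorem hg_form_ge_one {m n : ℤ} (h : (m, n) ≠ ((0 : ℤ), (0 : ℤ))) : 1 ≤ m ^ 2 + m * n + n ^ 2 := by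
  by_contra hc
  push Not at hc
  have h0 : m ^ 2 + m * n + n ^ 2 ≤ 0 := by omega
  have hm : m = 0 := by nlinarith [sq_nonneg (m + 2 * n), sq_nonneg m, sq_nonneg (2 * m + n), sq_nonneg n]
  have hn : n = 0 := by nlinarith [sq_nonneg (m + 2 * n), sq_nonneg m, sq_nonneg (2 * m + n), sq_nonneg n]
  exact h (by rw [hm, hn])

/-- the vectors of form `≤ 1` are `0` and the six units. -/
theorem hg_form_le_one {m n : ℤ} (h : m ^ 2 + m * n + n ^ 2 ≤ 1) :
    (m, n) = ((0 : ℤ), (0 : ℤ)) ∨ (m, n) = (1, 0) ∨ (m, n) = (0, 1) ∨ (m, n) = (-1, 1) ∨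
      (m, n) = (-1, 0) ∨ (m, n) = (0, -1) ∨ (m, n) = (1, -1) := by
  have hm : m ^ 2 ≤ 1 := by nlinarith [sq_nonneg (m + 2 * n)]
  have hn : n ^ 2 ≤ 1 := by nlinarith [sq_nonneg (2 * m + n)]
  have hm1 : -1 ≤ m ∧ m ≤ 1 := by constructor <;> nlinarith
  have hn1 : -1 ≤ n ∧ n ≤ 1 := by constructor <;> nlinarith
  obtain ⟨a1, a2⟩ := hm1
  obtain ⟨b1, b2⟩ := hn1
  interval_cases m <;> interval_cases n <;> simp_all

/-! ## A.1 distances between lattice points, linearisation -/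

theorem hg_sqrt3_sq : Real.sqrt 3 * Real.sqrt 3 = 3 := Real.mul_self_sqrt (by norm_num)

theorem hg_sqDist_nonneg (z w : ℝ × ℝ) : 0 ≤ sqDist z w := by
  unfold sqDist; positivity

theorem hg_sqDist_comm (z w : ℝ × ℝ) : sqDist z w = sqDist w z := by
  unfold sqDist; ring

theorem hg_sqDist_self (z : ℝ × ℝ) : sqDist z z = 0 := by
  unfold sqDist; ring

theorem hg_sqDist_eq_zero {z w : ℝ × ℝ} (h : sqDist z w = 0) : z = w := by
  unfold sqDist at h
  have h1 : z.1 - w.1 = 0 := by nlinarith [sq_nonneg (z.1 - w.1), sq_nonneg (z.2 - w.2)]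
  have h2 : z.2 - w.2 = 0 := by nlinarith [sq_nonneg (z.1 - w.1), sq_nonneg (z.2 - w.2)]
  exact Prod.ext (by linarith) (by linarith)

/-- weak triangle inequality for the squared distance. -/
theorem hg_sqDist_triangle (a b c : ℝ × ℝ) : sqDist a c ≤ 2 * (sqDist a b + sqDist b c) := by
  unfold sqDist
  nlinarith [sq_nonneg ((a.1 - b.1) - (b.1 - c.1)), sq_nonneg ((a.2 - b.2) - (b.2 - c.2))]

/-- comparison with the sup distance of `ℝ × ℝ`. -/
theorem hg_dist_sq_le_sqDist (z w : ℝ × ℝ) : dist z w ^ 2 ≤ sqDist z w := by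
  unfold sqDist
  rw [Prod.dist_eq]
  rcases max_cases (dist z.1 w.1) (dist z.2 w.2) with ⟨h, _⟩ | ⟨h, _⟩ <;> rw [h, Real.dist_eq, sq_abs]
  · nlinarith [sq_nonneg (z.2 - w.2)]
  · nlinarith [sq_nonneg (z.1 - w.1)]

theorem hg_sqDist_le_dist_sq (z w : ℝ × ℝ) : sqDist z w ≤ 2 * dist z w ^ 2 := by
  unfold sqDist
  have h1 : |z.1 - w.1| ≤ dist z w := by
    rw [Prod.dist_eq, ← Real.dist_eq]; exact le_max_left _ _
  have h2 : |z.2 - w.2| ≤ dist z w := by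
    rw [Prod.dist_eq, ← Real.dist_eq]; exact le_max_right _ _
  have h3 : (z.1 - w.1) ^ 2 ≤ dist z w ^ 2 := by
    rw [← sq_abs]; exact pow_le_pow_left₀ (abs_nonneg _) h1 2
  have h4 : (z.2 - w.2) ^ 2 ≤ dist z w ^ 2 := by
    rw [← sq_abs]; exact pow_le_pow_left₀ (abs_nonneg _) h2 2
  linarith

theorem hg_continuous_sqDist_left (w : ℝ × ℝ) : Continuous fun z : ℝ × ℝ => sqDist z w := by
  unfold sqDist; fun_prop

/-- squared distance of two lattice points. -/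
theorem hg_sqDist_triPos (δ : ℝ) (u v : ℤ × ℤ) :
    sqDist (triPos δ u) (triPos δ v) =
      δ ^ 2 * (((u.1 - v.1 : ℤ) : ℝ) ^ 2 + ((u.1 - v.1 : ℤ) : ℝ) * ((u.2 - v.2 : ℤ) : ℝ)
        + ((u.2 - v.2 : ℤ) : ℝ) ^ 2) := by
  unfold sqDist triPos
  push_cast
  nlinarith [hg_sqrt3_sq]

/-- distinct lattice points are at distance at least `δ`. -/
theorem hg_sqDist_triPos_ge (δ : ℝ) {u v : ℤ × ℤ} (h : u ≠ v) :
    δ ^ 2 ≤ sqDist (triPos δ u) (triPos δ v) := by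
  rw [hg_sqDist_triPos]
  have h1 : (u.1 - v.1, u.2 - v.2) ≠ ((0 : ℤ), (0 : ℤ)) := by
    intro h2
    apply h
    have h3 := congrArg Prod.fst h2
    have h4 := congrArg Prod.snd h2
    simp only at h3 h4
    exact Prod.ext (by omega) (by omega)
  have h2 := hg_form_ge_one h1
  have h3 : (1 : ℝ) ≤ ((u.1 - v.1 : ℤ) : ℝ) ^ 2 + ((u.1 - v.1 : ℤ) : ℝ) * ((u.2 - v.2 : ℤ) : ℝ)
        + ((u.2 - v.2 : ℤ) : ℝ) ^ 2 := by exact_mod_cast h2
  nlinarith [sq_nonneg δ]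

/-- first linear coordinate of `z` seen from the face centre `u`: `2⟨z - p_u, e₁⟩`. -/
noncomputable def hgA (δ : ℝ) (u : ℤ × ℤ) (z : ℝ × ℝ) : ℝ := 2 * δ * (z.1 - (triPos δ u).1)

/-- second linear coordinate of `z` seen from the face centre `u`: `2⟨z - p_u, e₂⟩`. -/
noncomputable def hgB (δ : ℝ) (u : ℤ × ℤ) (z : ℝ × ℝ) : ℝ :=
  δ * (z.1 - (triPos δ u).1) + δ * Real.sqrt 3 * (z.2 - (triPos δ u).2)

theorem hgA_eqns_cite (δ : ℝ) (u : ℤ × ℤ) (z : ℝ × ℝ) :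
    hgA δ u z = 2 * δ * (z.1 - (triPos δ u).1) := rfl

theorem hgB_eqns_cite (δ : ℝ) (u : ℤ × ℤ) (z : ℝ × ℝ) :
    hgB δ u z = δ * (z.1 - (triPos δ u).1) + δ * Real.sqrt 3 * (z.2 - (triPos δ u).2) := rfl

/-- linearisation of the comparison of two squared distances. -/
theorem hg_sqDist_sub (δ : ℝ) (u v : ℤ × ℤ) (z : ℝ × ℝ) :
    sqDist z (triPos δ v) - sqDist z (triPos δ u) =
      δ ^ 2 * (((v.1 - u.1 : ℤ) : ℝ) ^ 2 + ((v.1 - u.1 : ℤ) : ℝ) * ((v.2 - u.2 : ℤ) : ℝ)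
        + ((v.2 - u.2 : ℤ) : ℝ) ^ 2)
      - (((v.1 - u.1 : ℤ) : ℝ) * hgA δ u z + ((v.2 - u.2 : ℤ) : ℝ) * hgB δ u z) := by
  unfold sqDist triPos hgA hgB triPos
  push_cast
  linear_combination (δ ^ 2 * ((v.2 : ℝ) - u.2) ^ 2 / 4) * hg_sqrt3_sq

/-- the squared distance to the centre in the linear coordinates. -/
theorem hg_sqDist_center (δ : ℝ) (u : ℤ × ℤ) (z : ℝ × ℝ) :
    3 * δ ^ 2 * sqDist z (triPos δ u) = hgA δ u z ^ 2 - hgA δ u z * hgB δ u z + hgB δ u z ^ 2 := by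
  unfold sqDist hgA hgB
  linear_combination (-(δ ^ 2 * (z.2 - (triPos δ u).2) ^ 2)) * hg_sqrt3_sq

/-! ## A.2 the face is a hexagon -/

theorem hg_mem_hexFace_iff_all (δ : ℝ) (u : ℤ × ℤ) (z : ℝ × ℝ) :
    z ∈ hexFace δ u ↔ ∀ m n : ℤ, (m : ℝ) * hgA δ u z + (n : ℝ) * hgB δ u z
      ≤ δ ^ 2 * ((m : ℝ) ^ 2 + m * n + (n : ℝ) ^ 2) := by
  constructor
  · intro h m n
    have h1 := h (u.1 + m, u.2 + n)
    have h2 := hg_sqDist_sub δ u (u.1 + m, u.2 + n) z
    simp only [add_sub_cancel_left] at h2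
    linarith
  · intro h v
    have h1 := h (v.1 - u.1) (v.2 - u.2)
    have h2 := hg_sqDist_sub δ u v z
    linarith

/-- **the face is the hexagon cut out by six inequalities.** -/
theorem hg_mem_hexFace_iff (δ : ℝ) (u : ℤ × ℤ) (z : ℝ × ℝ) :
    z ∈ hexFace δ u ↔ |hgA δ u z| ≤ δ ^ 2 ∧ |hgB δ u z| ≤ δ ^ 2 ∧ |hgA δ u z - hgB δ u z| ≤ δ ^ 2 := by
  rw [hg_mem_hexFace_iff_all]
  constructor
  · intro h
    have a1 := h 1 0
    have a2 := h (-1) 0
    have a3 := h 0 1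
    have a4 := h 0 (-1)
    have a5 := h 1 (-1)
    have a6 := h (-1) 1
    push_cast at a1 a2 a3 a4 a5 a6
    refine ⟨abs_le.2 ⟨by linarith, by linarith⟩, abs_le.2 ⟨by linarith, by linarith⟩,
      abs_le.2 ⟨by linarith, by linarith⟩⟩
  · rintro ⟨h1, h2, h3⟩ m n
    exact hg_six_imp_all h1 h2 h3 m n

/-- outer radius `δ/√3`. -/
theorem hg_hexFace_sqDist_le {δ : ℝ} (hδ : 0 < δ) {u : ℤ × ℤ} {z : ℝ × ℝ} (h : z ∈ hexFace δ u) :
    sqDist z (triPos δ u) ≤ δ ^ 2 / 3 := by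
  obtain ⟨h1, h2, h3⟩ := (hg_mem_hexFace_iff δ u z).1 h
  have h4 := hg_sqDist_center δ u z
  set A := hgA δ u z
  set B := hgB δ u z
  set t := δ ^ 2 with ht
  have ht0 : 0 < t := by positivity
  obtain ⟨a1, a2⟩ := abs_le.1 h1
  obtain ⟨b1, b2⟩ := abs_le.1 h2
  obtain ⟨c1, c2⟩ := abs_le.1 h3
  have key : A ^ 2 - A * B + B ^ 2 ≤ t ^ 2 := by
    rcases le_total 0 A with hA | hA <;> rcases le_total 0 B with hB | hB
    · rcases le_total A B with hab | hab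
      · nlinarith [mul_nonneg hA (sub_nonneg.2 hab), mul_nonneg hB (sub_nonneg.2 b2)]
      · nlinarith [mul_nonneg hB (sub_nonneg.2 hab), mul_nonneg hA (sub_nonneg.2 a2)]
    · nlinarith [mul_nonneg hA (neg_nonneg.2 hB), mul_nonneg (sub_nonneg.2 c2) (by linarith : 0 ≤ A - B)]
    · nlinarith [mul_nonneg hB (neg_nonneg.2 hA), mul_nonneg (by linarith : 0 ≤ t + (A - B)) (by linarith : 0 ≤ B - A)]
    · rcases le_total A B with hab | hab
      · nlinarith [mul_nonneg (neg_nonneg.2 hB) (sub_nonneg.2 hab), mul_nonneg (neg_nonneg.2 hA) (by linarith : 0 ≤ t + A)]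
      · nlinarith [mul_nonneg (neg_nonneg.2 hA) (sub_nonneg.2 hab), mul_nonneg (neg_nonneg.2 hB) (by linarith : 0 ≤ t + B)]
  have h5 : 3 * t * sqDist z (triPos δ u) ≤ t * t := by rw [h4]; nlinarith
  have h6 : 3 * sqDist z (triPos δ u) ≤ t := by
    by_contra hc
    push Not at hc
    nlinarith
  linarith

/-- inner radius `δ/2`. -/
theorem hg_mem_hexFace_of_sqDist_le {δ : ℝ} (hδ : 0 < δ) {u : ℤ × ℤ} {z : ℝ × ℝ}
    (h : sqDist z (triPos δ u) ≤ δ ^ 2 / 4) : z ∈ hexFace δ u := by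
  rw [hg_mem_hexFace_iff]
  unfold sqDist at h
  unfold hgA hgB
  set a := z.1 - (triPos δ u).1
  set b := z.2 - (triPos δ u).2
  have s3 := hg_sqrt3_sq
  set s := Real.sqrt 3
  have e1 : (2 * a) ^ 2 ≤ δ ^ 2 := by nlinarith [sq_nonneg b]
  have e2 : (a + s * b) ^ 2 ≤ δ ^ 2 := by nlinarith [sq_nonneg (s * a - b)]
  have e3 : (a - s * b) ^ 2 ≤ δ ^ 2 := by nlinarith [sq_nonneg (s * a + b)]
  have f1 := abs_le_of_sq_le_sq e1 hδ.le
  have f2 := abs_le_of_sq_le_sq e2 hδ.le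
  have f3 := abs_le_of_sq_le_sq e3 hδ.le
  refine ⟨?_, ?_, ?_⟩
  · have : 2 * δ * a = δ * (2 * a) := by ring
    rw [this, abs_mul, abs_of_pos hδ]; nlinarith
  · have : δ * a + δ * s * b = δ * (a + s * b) := by ring
    rw [this, abs_mul, abs_of_pos hδ]; nlinarith
  · have : 2 * δ * a - (δ * a + δ * s * b) = δ * (a - s * b) := by ring
    rw [this, abs_mul, abs_of_pos hδ]; nlinarith

theorem hg_center_mem (δ : ℝ) (u : ℤ × ℤ) : triPos δ u ∈ hexFace δ u := by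
  intro v
  rw [hg_sqDist_self]
  exact hg_sqDist_nonneg _ _

/-! ## A.3 finiteness, cover, the faces that meet -/

/-- only finitely many lattice points in a disk. -/
theorem hg_finite_near {δ : ℝ} (hδ : 0 < δ) (z : ℝ × ℝ) (R : ℝ) :
    {v : ℤ × ℤ | sqDist z (triPos δ v) ≤ R}.Finite := by
  set K : ℝ := 4 * (R + sqDist z (triPos δ (0, 0))) / δ ^ 2 with hK
  apply Set.Finite.subset (Set.finite_Icc ((-⌈K⌉, -⌈K⌉) : ℤ × ℤ) (⌈K⌉, ⌈K⌉))
  intro v hv
  have hv' : sqDist z (triPos δ v) ≤ R := hv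
  have h1 := hg_sqDist_triangle (triPos δ v) z (triPos δ (0, 0))
  rw [hg_sqDist_comm (triPos δ v) z, hg_sqDist_triPos] at h1
  simp only [sub_zero] at h1
  have hd : 0 < δ ^ 2 := by positivity
  have h2 : (v.1 : ℝ) ^ 2 + (v.1 : ℝ) * v.2 + (v.2 : ℝ) ^ 2 ≤ K / 2 := by
    rw [hK, div_div, le_div_iff₀ (by positivity)]
    nlinarith
  have h3 : (v.1 : ℝ) ^ 2 ≤ K := by nlinarith [sq_nonneg ((v.1 : ℝ) + 2 * v.2)]
  have h4 : (v.2 : ℝ) ^ 2 ≤ K := by nlinarith [sq_nonneg (2 * (v.1 : ℝ) + v.2)]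
  have aux : ∀ k : ℤ, (k : ℝ) ^ 2 ≤ K → -⌈K⌉ ≤ k ∧ k ≤ ⌈K⌉ := by
    intro k hk
    have h5 : (k ^ 2 : ℤ) ≤ ⌈K⌉ := by
      have : ((k ^ 2 : ℤ) : ℝ) ≤ (⌈K⌉ : ℝ) := by push_cast; exact hk.trans (Int.le_ceil K)
      exact_mod_cast this
    constructor <;> nlinarith [sq_nonneg (k - 1), sq_nonneg (k + 1)]
  exact ⟨Prod.mk_le_mk.2 ⟨(aux _ h3).1, (aux _ h4).1⟩, Prod.mk_le_mk.2 ⟨(aux _ h3).2, (aux _ h4).2⟩⟩

/-- **the faces cover the plane.** -/
theorem hg_cover {δ : ℝ} (hδ : 0 < δ) (z : ℝ × ℝ) : ∃ u : ℤ × ℤ, z ∈ hexFace δ u := by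
  have hfin := hg_finite_near hδ z (sqDist z (triPos δ (0, 0)))
  have hne : {v : ℤ × ℤ | sqDist z (triPos δ v) ≤ sqDist z (triPos δ (0, 0))}.Nonempty :=
    ⟨(0, 0), le_refl (sqDist z (triPos δ (0, 0)))⟩
  obtain ⟨u, hu, hmin⟩ := Set.exists_min_image _ (fun v => sqDist z (triPos δ v)) hfin hne
  refine ⟨u, fun v => ?_⟩
  by_cases hv : sqDist z (triPos δ v) ≤ sqDist z (triPos δ (0, 0))
  · exact hmin v hv
  · push Not at hv
    exact (le_of_lt (lt_of_le_of_lt hu hv))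

/-- moving a point of the face towards the centre makes it strictly closer to the centre than to
any other lattice point. -/
theorem hg_segment_strict {δ : ℝ} (hδ : 0 < δ) {u v : ℤ × ℤ} (huv : v ≠ u) {z : ℝ × ℝ}
    (h : z ∈ hexFace δ u) {t : ℝ} (ht0 : 0 < t) (ht1 : t ≤ 1) :
    sqDist (z + t • (triPos δ u - z)) (triPos δ u) < sqDist (z + t • (triPos δ u - z)) (triPos δ v) := by
  have h1 := (hg_mem_hexFace_iff_all δ u z).1 h (v.1 - u.1) (v.2 - u.2)
  have h2 := hg_sqDist_sub δ u v (z + t • (triPos δ u - z))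
  have hA : hgA δ u (z + t • (triPos δ u - z)) = (1 - t) * hgA δ u z := by
    unfold hgA
    simp only [Prod.fst_add, Prod.smul_fst, Prod.fst_sub, smul_eq_mul]
    ring
  have hB : hgB δ u (z + t • (triPos δ u - z)) = (1 - t) * hgB δ u z := by
    unfold hgB
    simp only [Prod.fst_add, Prod.smul_fst, Prod.fst_sub, smul_eq_mul, Prod.snd_add, Prod.smul_snd,
      Prod.snd_sub]
    ring
  rw [hA, hB] at h2
  have h3 : (v.1 - u.1, v.2 - u.2) ≠ ((0 : ℤ), (0 : ℤ)) := by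
    intro h4
    apply huv
    have h5 := congrArg Prod.fst h4
    have h6 := congrArg Prod.snd h4
    simp only at h5 h6
    exact Prod.ext (by omega) (by omega)
  have h4 : (1 : ℝ) ≤ ((v.1 - u.1 : ℤ) : ℝ) ^ 2 + ((v.1 - u.1 : ℤ) : ℝ) * ((v.2 - u.2 : ℤ) : ℝ)
        + ((v.2 - u.2 : ℤ) : ℝ) ^ 2 := by exact_mod_cast hg_form_ge_one h3
  set N : ℝ := ((v.1 - u.1 : ℤ) : ℝ) ^ 2 + ((v.1 - u.1 : ℤ) : ℝ) * ((v.2 - u.2 : ℤ) : ℝ)
        + ((v.2 - u.2 : ℤ) : ℝ) ^ 2 with hN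
  set X : ℝ := ((v.1 - u.1 : ℤ) : ℝ) * hgA δ u z + ((v.2 - u.2 : ℤ) : ℝ) * hgB δ u z with hX
  have h5 : X ≤ δ ^ 2 * N := h1
  have hd : 0 < δ ^ 2 := by positivity
  have h6 : sqDist (z + t • (triPos δ u - z)) (triPos δ v)
      - sqDist (z + t • (triPos δ u - z)) (triPos δ u) = δ ^ 2 * N - (1 - t) * X := by
    rw [h2, hX]; ring
  have h7 : 0 < δ ^ 2 * N - (1 - t) * X := by
    nlinarith [mul_nonneg (sub_nonneg.2 ht1) (sub_nonneg.2 h5), mul_pos ht0 (mul_pos hd (lt_of_lt_of_le one_pos h4))]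
  linarith

/-- the same point still lies in the face. -/
theorem hg_segment_mem {δ : ℝ} (hδ : 0 < δ) {u : ℤ × ℤ} {z : ℝ × ℝ}
    (h : z ∈ hexFace δ u) {t : ℝ} (ht0 : 0 ≤ t) (ht1 : t ≤ 1) :
    z + t • (triPos δ u - z) ∈ hexFace δ u := by
  rcases ht0.eq_or_lt with rfl | ht0
  · simpa using h
  intro v
  by_cases hv : v = u
  · rw [hv]
  · exact (hg_segment_strict hδ hv h ht0 ht1).le

/-- and it lies in no other face. -/
theorem hg_segment_not_mem {δ : ℝ} (hδ : 0 < δ) {u v : ℤ × ℤ} (huv : v ≠ u) {z : ℝ × ℝ}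
    (h : z ∈ hexFace δ u) {t : ℝ} (ht0 : 0 < t) (ht1 : t ≤ 1) :
    z + t • (triPos δ u - z) ∉ hexFace δ v := by
  intro h1
  exact absurd (h1 u) (not_le.2 (hg_segment_strict hδ huv h ht0 ht1))

theorem hg_triAdj_symm {u v : ℤ × ℤ} (h : triAdj u v) : triAdj v u := by
  unfold triAdj at *
  have e : u - v = -(v - u) := by ring
  rw [e]
  rcases h with h | h | h | h | h | h <;> rw [h] <;> simp

theorem hg_triAdj_ne {u v : ℤ × ℤ} (h : triAdj u v) : u ≠ v := by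
  rintro rfl
  unfold triAdj at h
  simp [Prod.ext_iff] at h

/-- adjacency in terms of the quadratic form. -/
theorem hg_triAdj_iff_form (u v : ℤ × ℤ) :
    triAdj u v ↔ (v.1 - u.1) ^ 2 + (v.1 - u.1) * (v.2 - u.2) + (v.2 - u.2) ^ 2 = 1 := by
  have e : v - u = (v.1 - u.1, v.2 - u.2) := rfl
  unfold triAdj
  rw [e]
  constructor
  · intro h
    rcases h with h | h | h | h | h | h <;>
    · have h1 := congrArg Prod.fst h
      have h2 := congrArg Prod.snd h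
      simp only at h1 h2
      rw [h1, h2]; norm_num
  · intro h
    rcases hg_form_le_one h.le with h1 | h1 | h1 | h1 | h1 | h1 | h1
    · exfalso
      have h2 := congrArg Prod.fst h1
      have h3 := congrArg Prod.snd h1
      simp only at h2 h3
      rw [h2, h3] at h; norm_num at h
    all_goals simp [h1]

/-- adjacent centres are at distance exactly `δ`. -/
theorem hg_sqDist_of_triAdj (δ : ℝ) {u v : ℤ × ℤ} (h : triAdj u v) :
    sqDist (triPos δ u) (triPos δ v) = δ ^ 2 := by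
  rw [hg_sqDist_comm, hg_sqDist_triPos]
  have h1 := (hg_triAdj_iff_form u v).1 h
  have h2 : ((v.1 - u.1 : ℤ) : ℝ) ^ 2 + ((v.1 - u.1 : ℤ) : ℝ) * ((v.2 - u.2 : ℤ) : ℝ)
        + ((v.2 - u.2 : ℤ) : ℝ) ^ 2 = 1 := by exact_mod_cast h1
  rw [h2, mul_one]

/-- the midpoint of two lattice points. -/
noncomputable def hgMid (δ : ℝ) (u v : ℤ × ℤ) : ℝ × ℝ :=
  (((triPos δ u).1 + (triPos δ v).1) / 2, ((triPos δ u).2 + (triPos δ v).2) / 2)

theorem hgMid_eqns_cite (δ : ℝ) (u v : ℤ × ℤ) : hgMid δ u v =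
    (((triPos δ u).1 + (triPos δ v).1) / 2, ((triPos δ u).2 + (triPos δ v).2) / 2) := rfl

theorem hg_sqDist_mid_left (δ : ℝ) (u v : ℤ × ℤ) :
    sqDist (hgMid δ u v) (triPos δ u) = sqDist (triPos δ u) (triPos δ v) / 4 := by
  unfold sqDist hgMid; simp only; ring

theorem hg_sqDist_mid_right (δ : ℝ) (u v : ℤ × ℤ) :
    sqDist (hgMid δ u v) (triPos δ v) = sqDist (triPos δ u) (triPos δ v) / 4 := by
  unfold sqDist hgMid; simp only; ring

/-- parallelogram law at the midpoint. -/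
theorem hg_parallelogram (δ : ℝ) (u v : ℤ × ℤ) (p : ℝ × ℝ) :
    sqDist p (triPos δ u) + sqDist p (triPos δ v) =
      2 * sqDist (hgMid δ u v) p + sqDist (triPos δ u) (triPos δ v) / 2 := by
  unfold sqDist hgMid; simp only; ring

theorem hg_mid_mem_left {δ : ℝ} (hδ : 0 < δ) {u v : ℤ × ℤ} (h : triAdj u v) :
    hgMid δ u v ∈ hexFace δ u :=
  hg_mem_hexFace_of_sqDist_le hδ (by rw [hg_sqDist_mid_left, hg_sqDist_of_triAdj δ h])

theorem hg_mid_mem_right {δ : ℝ} (hδ : 0 < δ) {u v : ℤ × ℤ} (h : triAdj u v) :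
    hgMid δ u v ∈ hexFace δ v :=
  hg_mem_hexFace_of_sqDist_le hδ (by rw [hg_sqDist_mid_right, hg_sqDist_of_triAdj δ h])

/-- the midpoint of an edge lies in no third face. -/
theorem hg_mid_not_mem {δ : ℝ} (hδ : 0 < δ) {u v w : ℤ × ℤ} (h : triAdj u v) (hu : w ≠ u)
    (hv : w ≠ v) : hgMid δ u v ∉ hexFace δ w := by
  intro hw
  have h1 := hw u
  rw [hg_sqDist_mid_left, hg_sqDist_of_triAdj δ h] at h1
  have h2 := hg_parallelogram δ u v (triPos δ w)
  rw [hg_sqDist_of_triAdj δ h] at h2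
  have h3 := hg_sqDist_triPos_ge δ hu
  have h4 := hg_sqDist_triPos_ge δ hv
  have hd : 0 < δ ^ 2 := by positivity
  linarith

/-- **two faces meet iff they are equal or adjacent.** -/
theorem hg_inter_nonempty_iff {δ : ℝ} (hδ : 0 < δ) (u v : ℤ × ℤ) :
    (hexFace δ u ∩ hexFace δ v).Nonempty ↔ u = v ∨ triAdj u v := by
  constructor
  · rintro ⟨z, hu, hv⟩
    have h1 := hg_hexFace_sqDist_le hδ hu
    have h2 := hg_hexFace_sqDist_le hδ hv
    have h3 := hg_sqDist_triangle (triPos δ v) z (triPos δ u)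
    rw [hg_sqDist_comm (triPos δ v) z, hg_sqDist_triPos] at h3
    have hd : 0 < δ ^ 2 := by positivity
    have h4 : ((v.1 - u.1 : ℤ) : ℝ) ^ 2 + ((v.1 - u.1 : ℤ) : ℝ) * ((v.2 - u.2 : ℤ) : ℝ)
        + ((v.2 - u.2 : ℤ) : ℝ) ^ 2 < 2 := by
      by_contra hc
      push Not at hc
      nlinarith
    have h5 : (v.1 - u.1) ^ 2 + (v.1 - u.1) * (v.2 - u.2) + (v.2 - u.2) ^ 2 < 2 := by
      exact_mod_cast h4
    by_cases huv : u = v
    · exact Or.inl huv
    · right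
      rw [hg_triAdj_iff_form]
      have h6 : (v.1 - u.1, v.2 - u.2) ≠ ((0 : ℤ), (0 : ℤ)) := by
        intro h7
        apply huv
        have h8 := congrArg Prod.fst h7
        have h9 := congrArg Prod.snd h7
        simp only at h8 h9
        exact Prod.ext (by omega) (by omega)
      have h7 := hg_form_ge_one h6
      omega
  · rintro (rfl | h)
    · exact ⟨triPos δ u, hg_center_mem δ u, hg_center_mem δ u⟩
    · exact ⟨hgMid δ u v, hg_mid_mem_left hδ h, hg_mid_mem_right hδ h⟩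

/-! ## A.4 topology and measure of a face -/

theorem hg_isClosed_hexFace (δ : ℝ) (u : ℤ × ℤ) : IsClosed (hexFace δ u) := by
  have : hexFace δ u = ⋂ v : ℤ × ℤ, {z | sqDist z (triPos δ u) ≤ sqDist z (triPos δ v)} := by
    ext z; simp [hexFace]
  rw [this]
  exact isClosed_iInter fun v =>
    isClosed_le (hg_continuous_sqDist_left _) (hg_continuous_sqDist_left _)

theorem hg_measurableSet_hexFace (δ : ℝ) (u : ℤ × ℤ) : MeasurableSet (hexFace δ u) :=
  (hg_isClosed_hexFace δ u).measurableSet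

/-- the face lies in the closed sup-ball of radius `δ` about its centre. -/
theorem hg_hexFace_subset_closedBall {δ : ℝ} (hδ : 0 < δ) (u : ℤ × ℤ) :
    hexFace δ u ⊆ Metric.closedBall (triPos δ u) δ := by
  intro z hz
  rw [Metric.mem_closedBall]
  have h1 := hg_hexFace_sqDist_le hδ hz
  have h2 := hg_dist_sq_le_sqDist z (triPos δ u)
  exact abs_le_of_sq_le_sq' (by nlinarith [sq_nonneg δ]) hδ.le |>.2

theorem hg_isCompact_hexFace {δ : ℝ} (hδ : 0 < δ) (u : ℤ × ℤ) : IsCompact (hexFace δ u) :=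
  (isCompact_closedBall (triPos δ u) δ).of_isClosed_subset (hg_isClosed_hexFace δ u)
    (hg_hexFace_subset_closedBall hδ u)

/-- the open sup-ball of radius `δ/4` about the centre lies in the face. -/
theorem hg_ball_subset_hexFace {δ : ℝ} (hδ : 0 < δ) (u : ℤ × ℤ) :
    Metric.ball (triPos δ u) (δ / 4) ⊆ hexFace δ u := by
  intro z hz
  rw [Metric.mem_ball] at hz
  apply hg_mem_hexFace_of_sqDist_le hδ
  have h1 := hg_sqDist_le_dist_sq z (triPos δ u)
  have h2 : dist z (triPos δ u) ^ 2 ≤ (δ / 4) ^ 2 := pow_le_pow_left₀ dist_nonneg hz.le 2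
  nlinarith [sq_nonneg δ]

/-- **the family of faces is locally finite.** -/
theorem hg_locallyFinite {δ : ℝ} (hδ : 0 < δ) : LocallyFinite (hexFace δ) := by
  intro z
  refine ⟨Metric.ball z δ, Metric.ball_mem_nhds z hδ, ?_⟩
  apply (hg_finite_near hδ z (6 * δ ^ 2)).subset
  rintro v ⟨y, hy1, hy2⟩
  rw [Metric.mem_ball] at hy2
  have h1 := hg_hexFace_sqDist_le hδ hy1
  have h2 := hg_sqDist_le_dist_sq z y
  have h3 : dist z y ^ 2 ≤ δ ^ 2 := by
    rw [dist_comm]; exact pow_le_pow_left₀ dist_nonneg hy2.le 2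
  have h4 := hg_sqDist_triangle z y (triPos δ v)
  show sqDist z (triPos δ v) ≤ 6 * δ ^ 2
  nlinarith [sq_nonneg δ]

/-- a nontrivial line of `ℝ × ℝ` is a null set. -/
theorem hg_line_null {a b : ℝ} (hab : a ≠ 0 ∨ b ≠ 0) (c : ℝ) :
    volume {z : ℝ × ℝ | a * z.1 + b * z.2 = c} = 0 := by
  by_cases hne : {z : ℝ × ℝ | a * z.1 + b * z.2 = c}.Nonempty
  swap
  · rw [Set.not_nonempty_iff_eq_empty.1 hne]; simp
  obtain ⟨p, hp⟩ := hne
  let L : (ℝ × ℝ) →ₗ[ℝ] ℝ := a • LinearMap.fst ℝ ℝ ℝ + b • LinearMap.snd ℝ ℝ ℝ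
  have hL : ∀ z, L z = a * z.1 + b * z.2 := fun z => by simp [L]
  have hsub : {z : ℝ × ℝ | a * z.1 + b * z.2 = c} ⊆ (AffineSubspace.mk' p (LinearMap.ker L) : Set (ℝ × ℝ)) := by
    intro z hz
    have hz' : a * z.1 + b * z.2 = c := hz
    have hp' : a * p.1 + b * p.2 = c := hp
    rw [SetLike.mem_coe, AffineSubspace.mem_mk', LinearMap.mem_ker, vsub_eq_sub, map_sub, hL, hL]
    linarith
  have hne_top : AffineSubspace.mk' p (LinearMap.ker L) ≠ ⊤ := by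
    intro h
    have h1 : (AffineSubspace.mk' p (LinearMap.ker L)).direction = ⊤ := by
      rw [h, AffineSubspace.direction_top]
    rw [AffineSubspace.direction_mk'] at h1
    have h2 : ∀ z, L z = 0 := fun z => by
      have : z ∈ LinearMap.ker L := by rw [h1]; trivial
      exact this
    have h3 := h2 (1, 0)
    have h4 := h2 (0, 1)
    rw [hL] at h3 h4
    simp only [mul_one, mul_zero, add_zero, zero_add] at h3 h4
    rcases hab with h | h
    · exact h h3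
    · exact h h4
  exact measure_mono_null hsub (Measure.addHaar_affineSubspace volume _ hne_top)

/-- **overlaps of distinct faces are null.** -/
theorem hg_inter_null {δ : ℝ} (hδ : 0 < δ) {u v : ℤ × ℤ} (huv : u ≠ v) :
    volume (hexFace δ u ∩ hexFace δ v) = 0 := by
  have hsub : hexFace δ u ∩ hexFace δ v ⊆
      {z : ℝ × ℝ | (2 * ((triPos δ v).1 - (triPos δ u).1)) * z.1
        + (2 * ((triPos δ v).2 - (triPos δ u).2)) * z.2
        = (triPos δ v).1 ^ 2 + (triPos δ v).2 ^ 2 - (triPos δ u).1 ^ 2 - (triPos δ u).2 ^ 2} := by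
    rintro z ⟨h1, h2⟩
    have h3 := le_antisymm (h1 v) (h2 u)
    unfold sqDist at h3
    show _ = _
    nlinarith
  refine measure_mono_null hsub (hg_line_null ?_ _)
  by_contra hc
  push Not at hc
  obtain ⟨c1, c2⟩ := hc
  have h1 := hg_sqDist_triPos_ge δ huv
  unfold sqDist at h1
  have hd : 0 < δ ^ 2 := by positivity
  have e1 : (triPos δ u).1 - (triPos δ v).1 = 0 := by linarith
  have e2 : (triPos δ u).2 - (triPos δ v).2 = 0 := by linarith
  rw [e1, e2] at h1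
  nlinarith

theorem hg_aedisjoint {δ : ℝ} (hδ : 0 < δ) :
    Pairwise (Function.onFun (AEDisjoint volume) (hexFace δ)) :=
  fun _ _ huv => hg_inter_null hδ huv

/-- crude bound of the area of a face. -/
theorem hg_volume_hexFace_le {δ : ℝ} (hδ : 0 < δ) (u : ℤ × ℤ) :
    volume (hexFace δ u) ≤ ENNReal.ofReal (4 * δ ^ 2) := by
  refine (measure_mono (hg_hexFace_subset_closedBall hδ u)).trans ?_
  rw [← closedBall_prod_same, Measure.volume_eq_prod, Measure.prod_prod, Real.volume_closedBall,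
    Real.volume_closedBall, ← ENNReal.ofReal_mul (by positivity)]
  apply le_of_eq; congr 1; ring

theorem hg_volume_hexFace_lt_top {δ : ℝ} (hδ : 0 < δ) (u : ℤ × ℤ) : volume (hexFace δ u) < ⊤ :=
  (hg_isCompact_hexFace hδ u).measure_lt_top

/-! ## B.1 the region of a finite set of faces -/

/-- union of the faces of a set of lattice points. -/
def hgU (δ : ℝ) (S : Set (ℤ × ℤ)) : Set (ℝ × ℝ) := ⋃ u ∈ S, hexFace δ u

theorem hgU_eqns_cite (δ : ℝ) (S : Set (ℤ × ℤ)) : hgU δ S = ⋃ u ∈ S, hexFace δ u := rfl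

theorem hg_mem_U {δ : ℝ} {S : Set (ℤ × ℤ)} {z : ℝ × ℝ} :
    z ∈ hgU δ S ↔ ∃ u ∈ S, z ∈ hexFace δ u := by
  simp [hgU]

theorem hg_isClosed_U {δ : ℝ} (hδ : 0 < δ) (S : Set (ℤ × ℤ)) : IsClosed (hgU δ S) := by
  have h1 : hgU δ S = ⋃ u : S, hexFace δ u := by
    ext z; simp [hgU]
  rw [h1]
  exact ((hg_locallyFinite hδ).comp_injective Subtype.val_injective).isClosed_iUnion
    fun u => hg_isClosed_hexFace δ u

theorem hg_U_union_compl {δ : ℝ} (hδ : 0 < δ) (S : Set (ℤ × ℤ)) : hgU δ S ∪ hgU δ Sᶜ = univ := by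
  ext z
  simp only [mem_union, mem_univ, iff_true, hg_mem_U]
  obtain ⟨u, hu⟩ := hg_cover hδ z
  by_cases h : u ∈ S
  · exact Or.inl ⟨u, h, hu⟩
  · exact Or.inr ⟨u, h, hu⟩

theorem hg_U_mono {δ : ℝ} {S T : Set (ℤ × ℤ)} (h : S ⊆ T) : hgU δ S ⊆ hgU δ T := by
  intro z hz
  obtain ⟨u, hu, hz⟩ := hg_mem_U.1 hz
  exact hg_mem_U.2 ⟨u, h hu, hz⟩

theorem hg_U_union (δ : ℝ) (S T : Set (ℤ × ℤ)) : hgU δ (S ∪ T) = hgU δ S ∪ hgU δ T := by
  ext z
  simp only [hg_mem_U, mem_union]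
  constructor
  · rintro ⟨u, hu | hu, hz⟩
    · exact Or.inl ⟨u, hu, hz⟩
    · exact Or.inr ⟨u, hu, hz⟩
  · rintro (⟨u, hu, hz⟩ | ⟨u, hu, hz⟩)
    · exact ⟨u, Or.inl hu, hz⟩
    · exact ⟨u, Or.inr hu, hz⟩

/-- the path `t ↦ z + t (p - z)` tends to `z`. -/
theorem hg_segment_tendsto (z p : ℝ × ℝ) :
    Tendsto (fun t : ℝ => z + t • (p - z)) (𝓝[>] 0) (𝓝 z) := by
  have h : Continuous fun t : ℝ => z + t • (p - z) := by fun_prop
  have h1 := (h.tendsto 0).mono_left (nhdsWithin_le_nhds (s := Ioi (0 : ℝ)))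
  simpa using h1

/-- `interior (⋃ faces of S) = complement of the other faces`. -/
theorem hg_interior_U {δ : ℝ} (hδ : 0 < δ) (S : Set (ℤ × ℤ)) :
    interior (hgU δ S) = (hgU δ Sᶜ)ᶜ := by
  apply subset_antisymm
  · intro z hz hz'
    obtain ⟨v, hv, hzv⟩ := hg_mem_U.1 hz'
    have h1 : ∀ᶠ t in 𝓝[>] (0 : ℝ), z + t • (triPos δ v - z) ∈ interior (hgU δ S) :=
      (hg_segment_tendsto z (triPos δ v)).eventually (isOpen_interior.mem_nhds hz)
    have h2 : ∀ᶠ t in 𝓝[>] (0 : ℝ), t ∈ Ioc (0 : ℝ) 1 := Ioc_mem_nhdsGT one_pos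
    obtain ⟨t, ht1, ht2⟩ := (h1.and h2).exists
    obtain ⟨u, hu, hzu⟩ := hg_mem_U.1 (interior_subset ht1)
    have huv : u ≠ v := fun h => hv (h ▸ hu)
    exact hg_segment_not_mem hδ huv hzv ht2.1 ht2.2 hzu
  · apply interior_maximal _ (hg_isClosed_U hδ Sᶜ).isOpen_compl
    intro z hz
    have h1 : z ∈ hgU δ S ∪ hgU δ Sᶜ := by rw [hg_U_union_compl hδ]; trivial
    exact h1.resolve_right hz

/-- the closure of the interior gives the union of the faces back. -/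
theorem hg_closure_interior_U {δ : ℝ} (hδ : 0 < δ) (S : Set (ℤ × ℤ)) :
    closure (interior (hgU δ S)) = hgU δ S := by
  apply subset_antisymm
  · exact closure_minimal interior_subset (hg_isClosed_U hδ S)
  · intro z hz
    obtain ⟨u, hu, hzu⟩ := hg_mem_U.1 hz
    rw [hg_interior_U hδ]
    apply mem_closure_of_tendsto (hg_segment_tendsto z (triPos δ u))
    have h2 : ∀ᶠ t in 𝓝[>] (0 : ℝ), t ∈ Ioc (0 : ℝ) 1 := Ioc_mem_nhdsGT one_pos
    filter_upwards [h2] with t ht hz'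
    obtain ⟨v, hv, hzv⟩ := hg_mem_U.1 hz'
    have huv : v ≠ u := fun h => hv (h ▸ hu)
    exact hg_segment_not_mem hδ huv hzu ht.1 ht.2 hzv

theorem hg_frontier_interior_U {δ : ℝ} (hδ : 0 < δ) (S : Set (ℤ × ℤ)) :
    frontier (interior (hgU δ S)) = hgU δ S ∩ hgU δ Sᶜ := by
  rw [frontier, hg_closure_interior_U hδ, interior_interior, hg_interior_U hδ, sdiff_eq, compl_compl]

theorem hg_faceRegion_eq (δ : ℝ) (F : Finset (ℤ × ℤ)) :
    faceRegion δ F = interior (hgU δ (F : Set (ℤ × ℤ))) := by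
  unfold faceRegion hgU
  simp only [Finset.mem_coe]

/-- **the region is the complement of the outer faces.** -/
theorem hg_faceRegion_eq_compl {δ : ℝ} (hδ : 0 < δ) (F : Finset (ℤ × ℤ)) :
    faceRegion δ F = (hgU δ (F : Set (ℤ × ℤ))ᶜ)ᶜ := by
  rw [hg_faceRegion_eq, hg_interior_U hδ]

theorem hg_mem_faceRegion_iff {δ : ℝ} (hδ : 0 < δ) (F : Finset (ℤ × ℤ)) (z : ℝ × ℝ) :
    z ∈ faceRegion δ F ↔ ∀ v, z ∈ hexFace δ v → v ∈ F := by
  rw [hg_faceRegion_eq_compl hδ, mem_compl_iff, hg_mem_U]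
  constructor
  · intro h v hv
    by_contra hc
    exact h ⟨v, hc, hv⟩
  · rintro h ⟨v, hv, hz⟩
    exact hv (h v hz)

theorem hg_closure_faceRegion {δ : ℝ} (hδ : 0 < δ) (F : Finset (ℤ × ℤ)) :
    closure (faceRegion δ F) = hgU δ (F : Set (ℤ × ℤ)) := by
  rw [hg_faceRegion_eq, hg_closure_interior_U hδ]

/-- **the frontier of the region: the points lying in an inner and in an outer face.** -/
theorem hg_frontier_faceRegion {δ : ℝ} (hδ : 0 < δ) (F : Finset (ℤ × ℤ)) :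
    frontier (faceRegion δ F) = hgU δ (F : Set (ℤ × ℤ)) ∩ hgU δ (F : Set (ℤ × ℤ))ᶜ := by
  rw [hg_faceRegion_eq, hg_frontier_interior_U hδ]

theorem hg_mem_frontier_iff {δ : ℝ} (hδ : 0 < δ) (F : Finset (ℤ × ℤ)) (z : ℝ × ℝ) :
    z ∈ frontier (faceRegion δ F) ↔
      ∃ u ∈ F, ∃ v ∉ F, triAdj u v ∧ z ∈ hexFace δ u ∧ z ∈ hexFace δ v := by
  rw [hg_frontier_faceRegion hδ, mem_inter_iff, hg_mem_U, hg_mem_U]
  constructor
  · rintro ⟨⟨u, hu, hzu⟩, ⟨v, hv, hzv⟩⟩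
    refine ⟨u, hu, v, hv, ?_, hzu, hzv⟩
    rcases (hg_inter_nonempty_iff hδ u v).1 ⟨z, hzu, hzv⟩ with h | h
    · exact absurd (h ▸ hu) hv
    · exact h
  · rintro ⟨u, hu, v, hv, -, hzu, hzv⟩
    exact ⟨⟨u, hu, hzu⟩, ⟨v, hv, hzv⟩⟩

/-- the centre of a face of `F` lies in the region. -/
theorem hg_center_mem_faceRegion {δ : ℝ} (hδ : 0 < δ) {F : Finset (ℤ × ℤ)} {u : ℤ × ℤ} (hu : u ∈ F) :
    triPos δ u ∈ faceRegion δ F := by
  rw [hg_mem_faceRegion_iff hδ]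
  intro v hv
  by_contra hc
  have huv : u ≠ v := fun h => hc (h ▸ hu)
  have h1 := hv u
  rw [hg_sqDist_self] at h1
  have h2 := hg_sqDist_triPos_ge δ huv
  have hd : 0 < δ ^ 2 := by positivity
  linarith

/-- a lattice point whose position lies in the region belongs to `F`. -/
theorem hg_mem_of_center_mem {δ : ℝ} (hδ : 0 < δ) {F : Finset (ℤ × ℤ)} {u : ℤ × ℤ}
    (hu : triPos δ u ∈ faceRegion δ F) : u ∈ F :=
  (hg_mem_faceRegion_iff hδ F _).1 hu u (hg_center_mem δ u)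

theorem hg_center_mem_faceRegion_iff {δ : ℝ} (hδ : 0 < δ) (F : Finset (ℤ × ℤ)) (u : ℤ × ℤ) :
    triPos δ u ∈ faceRegion δ F ↔ u ∈ F :=
  ⟨hg_mem_of_center_mem hδ, hg_center_mem_faceRegion hδ⟩

/-- the midpoint of an inner edge lies in the region. -/
theorem hg_mid_mem_faceRegion {δ : ℝ} (hδ : 0 < δ) {F : Finset (ℤ × ℤ)} {u v : ℤ × ℤ} (hu : u ∈ F)
    (hv : v ∈ F) (h : triAdj u v) : hgMid δ u v ∈ faceRegion δ F := by
  rw [hg_mem_faceRegion_iff hδ]
  intro w hw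
  by_contra hc
  exact hg_mid_not_mem hδ h (fun e : w = u => hc (e ▸ hu)) (fun e : w = v => hc (e ▸ hv)) hw

/-- the midpoint of a boundary edge lies on the frontier. -/
theorem hg_mid_mem_frontier {δ : ℝ} (hδ : 0 < δ) {F : Finset (ℤ × ℤ)} {u v : ℤ × ℤ} (hu : u ∈ F)
    (hv : v ∉ F) (h : triAdj u v) : hgMid δ u v ∈ frontier (faceRegion δ F) :=
  (hg_mem_frontier_iff hδ F _).2 ⟨u, hu, v, hv, h, hg_mid_mem_left hδ h, hg_mid_mem_right hδ h⟩

/-- a face all of whose neighbours are in `F` lies in the region. -/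
theorem hg_hexFace_subset_faceRegion {δ : ℝ} (hδ : 0 < δ) {F : Finset (ℤ × ℤ)} {u : ℤ × ℤ}
    (hu : u ∈ F) (hn : ∀ v, triAdj u v → v ∈ F) : hexFace δ u ⊆ faceRegion δ F := by
  intro z hz
  rw [hg_mem_faceRegion_iff hδ]
  intro v hv
  rcases (hg_inter_nonempty_iff hδ u v).1 ⟨z, hz, hv⟩ with h | h
  · exact h ▸ hu
  · exact hn v h

/-! ## B.2 a connected frontier forces lattice connectivity of both sides -/

theorem hg_triAdj_add (u : ℤ × ℤ) :
    triAdj u (u + (1, 0)) ∧ triAdj u (u + (0, 1)) ∧ triAdj u (u + (-1, 1)) ∧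
      triAdj u (u + (-1, 0)) ∧ triAdj u (u + (0, -1)) ∧ triAdj u (u + (1, -1)) := by
  unfold triAdj
  simp

/-- the triangular lattice is connected: a nonempty set closed under adjacency is everything. -/
theorem hg_lattice_conn {S : Set (ℤ × ℤ)} (hne : S.Nonempty)
    (hcl : ∀ a ∈ S, ∀ b, triAdj a b → b ∈ S) : S = univ := by
  obtain ⟨a, ha⟩ := hne
  have h1 : ∀ m : ℤ, (a.1 + m, a.2) ∈ S := by
    intro m
    induction m using Int.induction_on with
    | zero => simpa using ha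
    | succ k ih =>
      have := hcl _ ih _ (hg_triAdj_add _).1
      simpa [add_assoc] using this
    | pred k ih =>
      have := hcl _ ih _ (hg_triAdj_add _).2.2.2.1
      have e : ((a.1 + -(k : ℤ), a.2) + ((-1, 0) : ℤ × ℤ)) = (a.1 + (-(k : ℤ) - 1), a.2) := by
        ext <;> simp; ring
      rwa [e] at this
  have h2 : ∀ m n : ℤ, (a.1 + m, a.2 + n) ∈ S := by
    intro m n
    induction n using Int.induction_on with
    | zero => simpa using h1 m
    | succ k ih =>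
      have := hcl _ ih _ (hg_triAdj_add _).2.1
      simpa [add_assoc] using this
    | pred k ih =>
      have := hcl _ ih _ (hg_triAdj_add _).2.2.2.2.1
      have e : ((a.1 + m, a.2 + -(k : ℤ)) + ((0, -1) : ℤ × ℤ)) = (a.1 + m, a.2 + (-(k : ℤ) - 1)) := by
        ext <;> simp; ring
      rwa [e] at this
  ext b
  simp only [mem_univ, iff_true]
  have := h2 (b.1 - a.1) (b.2 - a.2)
  simpa using this

/-- a proper nonempty set of lattice points has a boundary edge. -/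
theorem hg_exists_boundary_edge {S : Set (ℤ × ℤ)} (hne : S.Nonempty) (hne' : Sᶜ.Nonempty) :
    ∃ a ∈ S, ∃ b ∉ S, triAdj a b := by
  by_contra hc
  push Not at hc
  have h1 := hg_lattice_conn hne (fun a ha b hab => by
    by_contra hb
    exact hc a ha b hb hab)
  rw [h1] at hne'
  simp at hne'

/-- **Key topological step.**  If the common boundary of the faces of `P` and of the other faces is
connected, then `P` is connected for the lattice adjacency (no proper nonempty subset of `P` is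
closed under adjacency inside `P`). -/
theorem hg_no_split {δ : ℝ} (hδ : 0 < δ) {P : Set (ℤ × ℤ)}
    (hconn : IsPreconnected (hgU δ P ∩ hgU δ Pᶜ)) {S : Set (ℤ × ℤ)} (hS : S ⊆ P) (hne : S.Nonempty)
    (hcl : ∀ a ∈ S, ∀ b ∈ P, triAdj a b → b ∈ S) : S = P := by
  by_contra hSP
  have hT : (P \ S).Nonempty := by
    by_contra hc
    rw [Set.not_nonempty_iff_eq_empty, Set.sdiff_eq_empty] at hc
    exact hSP (subset_antisymm hS hc)
  have hclT : ∀ a ∈ P \ S, ∀ b ∈ P, triAdj a b → b ∈ P \ S := by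
    intro a ha b hb hab
    exact ⟨hb, fun hbS => ha.2 (hcl b hbS a ha.1 (hg_triAdj_symm hab))⟩
  -- each part touches the outside
  have touch : ∀ R : Set (ℤ × ℤ), R ⊆ P → R.Nonempty → Rᶜ.Nonempty →
      (∀ a ∈ R, ∀ b ∈ P, triAdj a b → b ∈ R) →
      ((hgU δ P ∩ hgU δ Pᶜ) ∩ hgU δ R).Nonempty := by
    intro R hR hRne hRc hRcl
    obtain ⟨a, ha, b, hb, hab⟩ := hg_exists_boundary_edge hRne hRc
    have hbP : b ∉ P := fun h => hb (hRcl a ha b h hab)
    exact ⟨hgMid δ a b, ⟨hg_mem_U.2 ⟨a, hR ha, hg_mid_mem_left hδ hab⟩,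
      hg_mem_U.2 ⟨b, hbP, hg_mid_mem_right hδ hab⟩⟩, hg_mem_U.2 ⟨a, ha, hg_mid_mem_left hδ hab⟩⟩
  have t1 := touch S hS hne (hT.mono fun x hx => hx.2) hcl
  have t2 := touch (P \ S) Set.sdiff_subset hT (hne.mono fun x hx h => h.2 hx) hclT
  have hcov : hgU δ P ∩ hgU δ Pᶜ ⊆ hgU δ S ∪ hgU δ (P \ S) := by
    rw [← hg_U_union, Set.union_sdiff_cancel hS]
    exact inter_subset_left
  obtain ⟨z, -, hz1, hz2⟩ := (isPreconnected_closed_iff.1 hconn) _ _ (hg_isClosed_U hδ S)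
    (hg_isClosed_U hδ (P \ S)) hcov t1 t2
  obtain ⟨a, ha, hza⟩ := hg_mem_U.1 hz1
  obtain ⟨b, hb, hzb⟩ := hg_mem_U.1 hz2
  rcases (hg_inter_nonempty_iff hδ a b).1 ⟨z, hza, hzb⟩ with h | h
  · exact hb.2 (h ▸ ha)
  · exact hb.2 (hcl a ha b hb.1 h)

/-- from "no split" to paths. -/
theorem hg_reach_of_no_split {P : Set (ℤ × ℤ)}
    (h : ∀ S : Set (ℤ × ℤ), S ⊆ P → S.Nonempty → (∀ a ∈ S, ∀ b ∈ P, triAdj a b → b ∈ S) → S = P)
    {u v : ℤ × ℤ} (hu : u ∈ P) (hv : v ∈ P) :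
    Relation.ReflTransGen (fun a b => triAdj a b ∧ b ∈ P) u v := by
  have h1 := h {w | w ∈ P ∧ Relation.ReflTransGen (fun a b => triAdj a b ∧ b ∈ P) u w}
    (fun w hw => hw.1) ⟨u, hu, Relation.ReflTransGen.refl⟩
    (fun a ha b hb hab => ⟨hb, ha.2.tail ⟨hab, hb⟩⟩)
  have h2 : v ∈ {w | w ∈ P ∧ Relation.ReflTransGen (fun a b => triAdj a b ∧ b ∈ P) u w} := by
    rw [h1]; exact hv
  exact h2.2

/-- the frontier of each approximating region is connected. -/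
theorem hg_frontier_preconnected {D : Set (ℝ × ℝ)} {δ : ℕ → ℝ} {F : ℕ → Finset (ℤ × ℤ)}
    (h : IsInsideApprox D δ F) (n : ℕ) : IsPreconnected (frontier (faceRegion (δ n) (F n))) := by
  obtain ⟨-, -, -, -, γ, γs, -, -, -, h1, -⟩ := h
  rw [← (h1 n).2.2]
  exact isPreconnected_range (h1 n).1

/-- **`F n` is connected** (split form). -/
theorem hg_F_no_split {D : Set (ℝ × ℝ)} {δ : ℕ → ℝ} {F : ℕ → Finset (ℤ × ℤ)}
    (h : IsInsideApprox D δ F) (n : ℕ) {S : Set (ℤ × ℤ)} (hS : S ⊆ (F n : Set (ℤ × ℤ)))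
    (hne : S.Nonempty) (hcl : ∀ a ∈ S, ∀ b ∈ F n, triAdj a b → b ∈ S) :
    S = (F n : Set (ℤ × ℤ)) := by
  have h1 := hg_frontier_preconnected h n
  rw [hg_frontier_faceRegion (h.1 n)] at h1
  exact hg_no_split (h.1 n) h1 hS hne hcl

/-- **the complement of `F n` is connected** (split form): no holes. -/
theorem hg_compl_no_split {D : Set (ℝ × ℝ)} {δ : ℕ → ℝ} {F : ℕ → Finset (ℤ × ℤ)}
    (h : IsInsideApprox D δ F) (n : ℕ) {S : Set (ℤ × ℤ)} (hS : S ⊆ (F n : Set (ℤ × ℤ))ᶜ)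
    (hne : S.Nonempty) (hcl : ∀ a ∈ S, ∀ b ∉ F n, triAdj a b → b ∈ S) :
    S = (F n : Set (ℤ × ℤ))ᶜ := by
  have h1 := hg_frontier_preconnected h n
  rw [hg_frontier_faceRegion (h.1 n), inter_comm] at h1
  have h2 : IsPreconnected (hgU (δ n) (F n : Set (ℤ × ℤ))ᶜ ∩ hgU (δ n) ((F n : Set (ℤ × ℤ))ᶜ)ᶜ) := by
    rwa [compl_compl]
  exact hg_no_split (h.1 n) h2 hS hne hcl

/-- **`F n` is connected** (path form). -/
theorem hg_F_reach {D : Set (ℝ × ℝ)} {δ : ℕ → ℝ} {F : ℕ → Finset (ℤ × ℤ)}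
    (h : IsInsideApprox D δ F) (n : ℕ) {u v : ℤ × ℤ} (hu : u ∈ F n) (hv : v ∈ F n) :
    Relation.ReflTransGen (fun a b => triAdj a b ∧ b ∈ F n) u v :=
  hg_reach_of_no_split (P := (F n : Set (ℤ × ℤ)))
    (fun _ hS hne hcl => hg_F_no_split h n hS hne hcl) hu hv

/-- **the complement of `F n` is connected** (path form). -/
theorem hg_compl_reach {D : Set (ℝ × ℝ)} {δ : ℕ → ℝ} {F : ℕ → Finset (ℤ × ℤ)}
    (h : IsInsideApprox D δ F) (n : ℕ) {u v : ℤ × ℤ} (hu : u ∉ F n) (hv : v ∉ F n) :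
    Relation.ReflTransGen (fun a b => triAdj a b ∧ b ∉ F n) u v :=
  hg_reach_of_no_split (P := (F n : Set (ℤ × ℤ))ᶜ)
    (fun _ hS hne hcl => hg_compl_no_split h n hS hne hcl) hu hv

end Claimed.Agent.R291
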