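/-
Row 291 (S0539), BOX:TOP-DICT#geo (helper172), second file.  Prefix `hg_`.
Closed statements on the frozen definitions of `Def_0467`.

Part B.3-B.6: the regions are connected, `D` is connected, face weights add up to the integral,
faces near a compact subset of `D` are interior faces, boundary faces are near `∂D` and conversely.
Part W: the soft substitute of the boundary walk (TEX[lem:boundary-walk]): for a connected set `I`
of parameters the boundary faces visited by `γs n` on `I` form a lattice-connected set which stays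
near `γ '' I`; every boundary face is visited; visits near `γ θ'` have parameters near `θ'`.
-/
import Claimed.Agent.R291.Geo.Hex

set_option autoImplicit false
open Claims.C0467 MeasureTheory Filter Topology Set

namespace Claimed.Agent.R291

/-! ## B.3 connectedness of the regions and of `D` -/

/-- the part of a face of `F` inside the region is star shaped about the centre. -/
theorem hg_starConvex_piece {δ : ℝ} (hδ : 0 < δ) {F : Finset (ℤ × ℤ)} {u : ℤ × ℤ} (hu : u ∈ F) :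
    StarConvex ℝ (triPos δ u) (hexFace δ u ∩ faceRegion δ F) := by
  intro z hz a b ha hb hab
  have e : a • triPos δ u + b • z = z + a • (triPos δ u - z) := by
    have hb' : b = 1 - a := by linarith
    rw [hb', sub_smul, one_smul, smul_sub]; abel
  rw [e]
  have ha1 : a ≤ 1 := by linarith
  rcases ha.eq_or_lt with rfl | ha0
  · simpa using hz
  refine ⟨hg_segment_mem hδ hz.1 ha ha1, ?_⟩
  rw [hg_mem_faceRegion_iff hδ]
  intro v hv
  by_contra hc
  exact hg_segment_not_mem hδ (fun e : v = u => hc (e ▸ hu)) hz.1 ha0 ha1 hv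

theorem hg_preconnected_piece {δ : ℝ} (hδ : 0 < δ) {F : Finset (ℤ × ℤ)} {u : ℤ × ℤ} (hu : u ∈ F) :
    IsPreconnected (hexFace δ u ∩ faceRegion δ F) :=
  ((hg_starConvex_piece hδ hu).isPathConnected
    ⟨hg_center_mem δ u, hg_center_mem_faceRegion hδ hu⟩).isConnected.isPreconnected

/-- a lattice-connected set of faces has a connected region. -/
theorem hg_preconnected_faceRegion {δ : ℝ} (hδ : 0 < δ) {F : Finset (ℤ × ℤ)}
    (hF : ∀ S : Set (ℤ × ℤ), S ⊆ (F : Set (ℤ × ℤ)) → S.Nonempty →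
      (∀ a ∈ S, ∀ b ∈ F, triAdj a b → b ∈ S) → S = (F : Set (ℤ × ℤ))) :
    IsPreconnected (faceRegion δ F) := by
  rcases F.eq_empty_or_nonempty with rfl | ⟨u0, hu0⟩
  · have : faceRegion δ (∅ : Finset (ℤ × ℤ)) = ∅ := by simp [faceRegion]
    rw [this]; exact isPreconnected_empty
  have h1 := hF {u | u ∈ F ∧ ∃ t, t ⊆ faceRegion δ F ∧ IsPreconnected t ∧ triPos δ u0 ∈ t ∧
      hexFace δ u ∩ faceRegion δ F ⊆ t} (fun u hu => hu.1)
    ⟨u0, hu0, _, inter_subset_right, hg_preconnected_piece hδ hu0,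
      ⟨hg_center_mem δ u0, hg_center_mem_faceRegion hδ hu0⟩, subset_rfl⟩
    (by
      rintro a ⟨ha, t, ht1, ht2, ht3, ht4⟩ b hb hab
      refine ⟨hb, t ∪ (hexFace δ b ∩ faceRegion δ F), union_subset ht1 inter_subset_right, ?_,
        Or.inl ht3, subset_union_right⟩
      exact IsPreconnected.union (hgMid δ a b)
        (ht4 ⟨hg_mid_mem_left hδ hab, hg_mid_mem_faceRegion hδ ha hb hab⟩)
        ⟨hg_mid_mem_right hδ hab, hg_mid_mem_faceRegion hδ ha hb hab⟩ ht2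
        (hg_preconnected_piece hδ hb))
  apply isPreconnected_of_forall (triPos δ u0)
  intro y hy
  obtain ⟨u, hu⟩ := hg_cover hδ y
  have huF : u ∈ F := (hg_mem_faceRegion_iff hδ F y).1 hy u hu
  have h2 : u ∈ {u | u ∈ F ∧ ∃ t, t ⊆ faceRegion δ F ∧ IsPreconnected t ∧ triPos δ u0 ∈ t ∧
      hexFace δ u ∩ faceRegion δ F ⊆ t} := by rw [h1]; exact huF
  obtain ⟨-, t, ht1, ht2, ht3, ht4⟩ := h2
  exact ⟨t, ht1, ht3, ht4 ⟨hu, hy⟩, ht2⟩

/-- **every approximating region is connected.** -/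
theorem hg_region_preconnected {D : Set (ℝ × ℝ)} {δ : ℕ → ℝ} {F : ℕ → Finset (ℤ × ℤ)}
    (h : IsInsideApprox D δ F) (n : ℕ) : IsPreconnected (faceRegion (δ n) (F n)) :=
  hg_preconnected_faceRegion (h.1 n) fun _ hS hne hcl => hg_F_no_split h n hS hne hcl

/-- **a domain with an inside approximation is connected** (no Jordan curve theorem needed). -/
theorem hg_D_preconnected {D : Set (ℝ × ℝ)} {δ : ℕ → ℝ} {F : ℕ → Finset (ℤ × ℤ)}
    (h : IsInsideApprox D δ F) : IsPreconnected D := by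
  apply isPreconnected_of_forall_pair
  intro x hx y hy
  have hK : IsCompact ({x, y} : Set (ℝ × ℝ)) := (Set.toFinite _).isCompact
  have hKD : ({x, y} : Set (ℝ × ℝ)) ⊆ D := by
    rintro z (rfl | rfl)
    · exact hx
    · exact hy
  obtain ⟨n, hn⟩ := (h.2.2.2.1 _ hK hKD).exists
  exact ⟨faceRegion (δ n) (F n), h.2.2.1 n, hn (by simp), hn (by simp), hg_region_preconnected h n⟩

theorem hg_D_nonempty {D : Set (ℝ × ℝ)} (hD : IsC2JordanDomain D) : D.Nonempty := by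
  obtain ⟨-, -, c, ℓ, -, -, -, -, -, hr⟩ := hD
  by_contra hc
  rw [Set.not_nonempty_iff_eq_empty] at hc
  rw [hc, frontier_empty] at hr
  exact (Set.range_nonempty c).ne_empty hr

/-! ## B.4 face weights -/

/-- the face weights of an integrable function add up to its integral over the union. -/
theorem hg_sum_face_integral {δ : ℝ} (hδ : 0 < δ) (F : Finset (ℤ × ℤ)) {f : ℝ × ℝ → ℝ}
    (hf : IntegrableOn f (hgU δ (F : Set (ℤ × ℤ)))) :
    ∑ u : F, ∫ z in hexFace δ u, f z = ∫ z in hgU δ (F : Set (ℤ × ℤ)), f z := by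
  have h1 : hgU δ (F : Set (ℤ × ℤ)) = ⋃ u : F, hexFace δ u := by
    ext z; simp [hgU]
  rw [h1] at hf ⊢
  rw [integral_iUnion_ae (s := fun u : F => hexFace δ u)
    (fun u => (hg_measurableSet_hexFace δ u).nullMeasurableSet) ?_ hf, tsum_fintype]
  intro u v huv
  exact hg_inter_null hδ (fun e => huv (Subtype.ext e))

/-- **the face weights of a test function supported in the faces of `F` sum to `∫ f`.** -/
theorem hg_sum_face_integral_eq {δ : ℝ} (hδ : 0 < δ) (F : Finset (ℤ × ℤ)) {f : ℝ × ℝ → ℝ}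
    (hf : Integrable f) (hsupp : ∀ z, z ∉ hgU δ (F : Set (ℤ × ℤ)) → f z = 0) :
    ∑ u : F, ∫ z in hexFace δ u, f z = ∫ z, f z := by
  rw [hg_sum_face_integral hδ F hf.integrableOn, setIntegral_eq_integral_of_forall_compl_eq_zero hsupp]

theorem hg_sum_face_integral_eq' {δ : ℝ} (hδ : 0 < δ) (F : Finset (ℤ × ℤ)) {f : ℝ × ℝ → ℝ}
    (hf : Integrable f) (hsupp : ∀ z, z ∉ hgU δ (F : Set (ℤ × ℤ)) → f z = 0) :
    ∑ u ∈ F, ∫ z in hexFace δ u, f z = ∫ z, f z := by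
  rw [← hg_sum_face_integral_eq hδ F hf hsupp]
  exact (Finset.sum_coe_sort F fun u => ∫ z in hexFace δ u, f z).symm

/-- absolute face weights are bounded by the `L¹` norm. -/
theorem hg_sum_abs_face_integral_le {δ : ℝ} (hδ : 0 < δ) (F : Finset (ℤ × ℤ)) {f : ℝ × ℝ → ℝ}
    (hf : Integrable f) : ∑ u : F, |∫ z in hexFace δ u, f z| ≤ ∫ z, |f z| := by
  calc ∑ u : F, |∫ z in hexFace δ u, f z| ≤ ∑ u : F, ∫ z in hexFace δ u, |f z| :=
        Finset.sum_le_sum fun u _ => abs_integral_le_integral_abs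
    _ = ∫ z in hgU δ (F : Set (ℤ × ℤ)), |f z| := hg_sum_face_integral hδ F hf.abs.integrableOn
    _ ≤ ∫ z, |f z| := setIntegral_le_integral hf.abs (Eventually.of_forall fun z => abs_nonneg _)

/-- a single face weight is at most `4 δ² sup |f|`. -/
theorem hg_abs_face_integral_le {δ : ℝ} (hδ : 0 < δ) (u : ℤ × ℤ) {f : ℝ × ℝ → ℝ} {M : ℝ}
    (hM : ∀ z, |f z| ≤ M) : |∫ z in hexFace δ u, f z| ≤ M * (4 * δ ^ 2) := by
  have h1 := norm_setIntegral_le_of_norm_le_const (μ := volume) (s := hexFace δ u) (f := f) (C := M)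
    (hg_volume_hexFace_lt_top hδ u) (fun z _ => by rw [Real.norm_eq_abs]; exact hM z)
  rw [Real.norm_eq_abs] at h1
  have hM0 : 0 ≤ M := (abs_nonneg _).trans (hM 0)
  refine h1.trans (mul_le_mul_of_nonneg_left ?_ hM0)
  rw [Measure.real]
  exact ENNReal.toReal_le_of_le_ofReal (by positivity) (hg_volume_hexFace_le hδ u)

/-! ## B.5 faces near a compact subset of `D` -/

theorem hg_dist_center_le {δ : ℝ} (hδ : 0 < δ) {u : ℤ × ℤ} {z : ℝ × ℝ} (hz : z ∈ hexFace δ u) :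
    dist z (triPos δ u) ≤ δ := hg_hexFace_subset_closedBall hδ u hz

theorem hg_dist_of_triAdj {δ : ℝ} (hδ : 0 < δ) {u v : ℤ × ℤ} (h : triAdj u v) :
    dist (triPos δ u) (triPos δ v) ≤ δ := by
  have h1 := hg_dist_sq_le_sqDist (triPos δ u) (triPos δ v)
  rw [hg_sqDist_of_triAdj δ h] at h1
  exact abs_le_of_sq_le_sq' h1 hδ.le |>.2

/-- the centres of the faces of `F n` lie in `D`. -/
theorem hg_center_mem_D {D : Set (ℝ × ℝ)} {δ : ℕ → ℝ} {F : ℕ → Finset (ℤ × ℤ)}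
    (h : IsInsideApprox D δ F) {n : ℕ} {u : ℤ × ℤ} (hu : u ∈ F n) : triPos (δ n) u ∈ D :=
  h.2.2.1 n (hg_center_mem_faceRegion (h.1 n) hu)

/-- the faces of `F n` lie in the closure of `D`. -/
theorem hg_hexFace_subset_closure_D {D : Set (ℝ × ℝ)} {δ : ℕ → ℝ} {F : ℕ → Finset (ℤ × ℤ)}
    (h : IsInsideApprox D δ F) {n : ℕ} {u : ℤ × ℤ} (hu : u ∈ F n) :
    hexFace (δ n) u ⊆ closure D := by
  intro z hz
  have h1 : z ∈ closure (faceRegion (δ n) (F n)) := by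
    rw [hg_closure_faceRegion (h.1 n)]; exact hg_mem_U.2 ⟨u, hu, hz⟩
  exact closure_mono (h.2.2.1 n) h1

/-- **lattice points within `m` meshes of a compact subset of `D` belong to `F n` eventually.** -/
theorem hg_near_compact {D : Set (ℝ × ℝ)} (hDo : IsOpen D) {δ : ℕ → ℝ} {F : ℕ → Finset (ℤ × ℤ)}
    (h : IsInsideApprox D δ F) {K : Set (ℝ × ℝ)} (hK : IsCompact K) (hKD : K ⊆ D) (m : ℝ) :
    ∀ᶠ n in atTop, ∀ u : ℤ × ℤ, (∃ z ∈ K, dist (triPos (δ n) u) z ≤ m * δ n) → u ∈ F n := by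
  obtain ⟨r, hr, hrD⟩ := hK.exists_cthickening_subset_open hDo hKD
  have h1 := h.2.2.2.1 _ hK.cthickening hrD
  have h2 : ∀ᶠ n in atTop, m * δ n < r := by
    have : Tendsto (fun n => m * δ n) atTop (𝓝 (m * 0)) := h.2.1.const_mul m
    rw [mul_zero] at this
    exact this.eventually (gt_mem_nhds hr)
  filter_upwards [h1, h2] with n hn1 hn2 u hu
  obtain ⟨z, hz, hd⟩ := hu
  exact hg_mem_of_center_mem (h.1 n)
    (hn1 (Metric.mem_cthickening_of_dist_le _ z r K hz (hd.trans hn2.le)))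

/-- **faces that meet a compact subset of `D` are interior faces eventually**: they and all their
neighbours belong to `F n`. -/
theorem hg_faces_meeting_compact {D : Set (ℝ × ℝ)} (hDo : IsOpen D) {δ : ℕ → ℝ}
    {F : ℕ → Finset (ℤ × ℤ)} (h : IsInsideApprox D δ F) {K : Set (ℝ × ℝ)} (hK : IsCompact K)
    (hKD : K ⊆ D) :
    ∀ᶠ n in atTop, ∀ u : ℤ × ℤ, (hexFace (δ n) u ∩ K).Nonempty →
      u ∈ F n ∧ ∀ v, triAdj u v → v ∈ F n := by
  filter_upwards [hg_near_compact hDo h hK hKD 2] with n hn u hu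
  obtain ⟨z, hz1, hz2⟩ := hu
  have hδ := h.1 n
  have h1 : dist (triPos (δ n) u) z ≤ δ n := by rw [dist_comm]; exact hg_dist_center_le hδ hz1
  refine ⟨hn u ⟨z, hz2, by linarith⟩, fun v hv => hn v ⟨z, hz2, ?_⟩⟩
  have h2 := hg_dist_of_triAdj hδ (hg_triAdj_symm hv)
  have h3 := dist_triangle (triPos (δ n) v) (triPos (δ n) u) z
  linarith

/-- for a test function with compact support in `D` the face weights sum to `∫ f` eventually. -/
theorem hg_weights_sum_eventually {D : Set (ℝ × ℝ)} {δ : ℕ → ℝ}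
    {F : ℕ → Finset (ℤ × ℤ)} (h : IsInsideApprox D δ F) {f : ℝ × ℝ → ℝ} (hf : Integrable f)
    (hc : HasCompactSupport f) (hs : tsupport f ⊆ D) :
    ∀ᶠ n in atTop, ∑ u : F n, ∫ z in hexFace (δ n) u, f z = ∫ z, f z := by
  filter_upwards [h.2.2.2.1 _ hc hs] with n hn
  apply hg_sum_face_integral_eq (h.1 n) (F n) hf
  intro z hz
  by_contra hne
  have h1 : z ∈ tsupport f := subset_tsupport f hne
  have h2 := hn h1
  rw [hg_faceRegion_eq] at h2
  exact hz (interior_subset h2)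

/-! ## B.6 boundary faces and `∂D` -/

/-- **boundary faces are near `∂D`.** -/
theorem hg_boundary_face_near {D : Set (ℝ × ℝ)} {δ : ℕ → ℝ} {F : ℕ → Finset (ℤ × ℤ)}
    (h : IsInsideApprox D δ F) {ε : ℝ} (hε : 0 < ε) :
    ∀ᶠ n in atTop, ∀ u ∈ F n, (∃ v, triAdj u v ∧ v ∉ F n) →
      ∃ w ∈ frontier D, dist (triPos (δ n) u) w < ε := by
  obtain ⟨h1, h2, -, -, γ, γs, -, -, hγr, hγs, hconv⟩ := h
  have h3 : ∀ᶠ n in atTop, δ n < ε / 2 := h2.eventually (gt_mem_nhds (by positivity))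
  filter_upwards [hconv (ε / 2) (by positivity), h3] with n hn1 hn2 u hu hv
  obtain ⟨v, huv, hv⟩ := hv
  have hm := hg_mid_mem_frontier (h1 n) hu hv huv
  rw [← (hγs n).2.2] at hm
  obtain ⟨θ, hθ⟩ := hm
  refine ⟨γ θ, hγr ▸ mem_range_self θ, ?_⟩
  have e1 : dist (γs n θ) (γ θ) < ε / 2 := by
    have := hg_dist_sq_le_sqDist (γs n θ) (γ θ)
    exact abs_lt_of_sq_lt_sq' (lt_of_le_of_lt this (hn1 θ)) (by positivity) |>.2
  have e2 : dist (triPos (δ n) u) (γs n θ) ≤ δ n := by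
    rw [hθ, dist_comm]; exact hg_dist_center_le (h1 n) (hg_mid_mem_left (h1 n) huv)
  have := dist_triangle (triPos (δ n) u) (γs n θ) (γ θ)
  linarith

/-- **every point of `∂D` is near a boundary face.** -/
theorem hg_frontier_near_boundary_face {D : Set (ℝ × ℝ)} {δ : ℕ → ℝ} {F : ℕ → Finset (ℤ × ℤ)}
    (h : IsInsideApprox D δ F) {ε : ℝ} (hε : 0 < ε) :
    ∀ᶠ n in atTop, ∀ w ∈ frontier D, ∃ u ∈ F n, (∃ v, triAdj u v ∧ v ∉ F n) ∧
      dist (triPos (δ n) u) w < ε := by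
  obtain ⟨h1, h2, -, -, γ, γs, -, -, hγr, hγs, hconv⟩ := h
  have h3 : ∀ᶠ n in atTop, δ n < ε / 2 := h2.eventually (gt_mem_nhds (by positivity))
  filter_upwards [hconv (ε / 2) (by positivity), h3] with n hn1 hn2 w hw
  rw [← hγr] at hw
  obtain ⟨θ, rfl⟩ := hw
  have hm : γs n θ ∈ frontier (faceRegion (δ n) (F n)) := (hγs n).2.2 ▸ mem_range_self θ
  obtain ⟨u, hu, v, hv, huv, hzu, -⟩ := (hg_mem_frontier_iff (h1 n) (F n) _).1 hm
  refine ⟨u, hu, ⟨v, huv, hv⟩, ?_⟩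
  have e1 : dist (γs n θ) (γ θ) < ε / 2 := by
    have := hg_dist_sq_le_sqDist (γs n θ) (γ θ)
    exact abs_lt_of_sq_lt_sq' (lt_of_le_of_lt this (hn1 θ)) (by positivity) |>.2
  have e2 : dist (triPos (δ n) u) (γs n θ) ≤ δ n := by
    rw [dist_comm]; exact hg_dist_center_le (h1 n) hzu
  have := dist_triangle (triPos (δ n) u) (γs n θ) (γ θ)
  linarith

/-! ## W. the soft boundary walk (TEX[lem:boundary-walk], TEX[pins:label-count], Sec. 6.1) -/

/-- the boundary data hidden in `IsInsideApprox`. -/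
def HgBd (D : Set (ℝ × ℝ)) (δ : ℕ → ℝ) (F : ℕ → Finset (ℤ × ℤ)) (γ : Circle → ℝ × ℝ)
    (γs : ℕ → Circle → ℝ × ℝ) : Prop :=
  Continuous γ ∧ Function.Injective γ ∧ Set.range γ = frontier D ∧
    (∀ n, Continuous (γs n) ∧ Function.Injective (γs n) ∧
      Set.range (γs n) = frontier (faceRegion (δ n) (F n))) ∧
    ∀ ε : ℝ, 0 < ε → ∀ᶠ n in atTop, ∀ z, sqDist (γs n z) (γ z) < ε ^ 2

theorem HgBd_eqns_cite (D : Set (ℝ × ℝ)) (δ : ℕ → ℝ) (F : ℕ → Finset (ℤ × ℤ)) (γ : Circle → ℝ × ℝ)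
    (γs : ℕ → Circle → ℝ × ℝ) : HgBd D δ F γ γs ↔
  (Continuous γ ∧ Function.Injective γ ∧ Set.range γ = frontier D ∧
    (∀ n, Continuous (γs n) ∧ Function.Injective (γs n) ∧
      Set.range (γs n) = frontier (faceRegion (δ n) (F n))) ∧
    ∀ ε : ℝ, 0 < ε → ∀ᶠ n in atTop, ∀ z, sqDist (γs n z) (γ z) < ε ^ 2) := Iff.rfl

theorem hg_exists_bd {D : Set (ℝ × ℝ)} {δ : ℕ → ℝ} {F : ℕ → Finset (ℤ × ℤ)}
    (h : IsInsideApprox D δ F) : ∃ γ γs, HgBd D δ F γ γs := h.2.2.2.2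

/-- uniform convergence in the sup distance. -/
theorem hg_bd_dist {D : Set (ℝ × ℝ)} {δ : ℕ → ℝ} {F : ℕ → Finset (ℤ × ℤ)} {γ : Circle → ℝ × ℝ}
    {γs : ℕ → Circle → ℝ × ℝ} (hb : HgBd D δ F γ γs) {ε : ℝ} (hε : 0 < ε) :
    ∀ᶠ n in atTop, ∀ θ, dist (γs n θ) (γ θ) < ε := by
  filter_upwards [hb.2.2.2.2 ε hε] with n hn θ
  have := hg_dist_sq_le_sqDist (γs n θ) (γ θ)
  exact abs_lt_of_sq_lt_sq' (lt_of_le_of_lt this (hn θ)) hε.le |>.2

/-- the faces of `F` visited by the curve `g` on the parameter set `I`. -/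
def hgVis (δ : ℝ) (F : Finset (ℤ × ℤ)) (g : Circle → ℝ × ℝ) (I : Set Circle) : Set (ℤ × ℤ) :=
  {u | u ∈ F ∧ ∃ θ ∈ I, g θ ∈ hexFace δ u}

theorem hgVis_eqns_cite (δ : ℝ) (F : Finset (ℤ × ℤ)) (g : Circle → ℝ × ℝ) (I : Set Circle) :
    hgVis δ F g I = {u | u ∈ F ∧ ∃ θ ∈ I, g θ ∈ hexFace δ u} := rfl

theorem hg_vis_mono {δ : ℝ} {F : Finset (ℤ × ℤ)} {g : Circle → ℝ × ℝ} {I J : Set Circle}
    (h : I ⊆ J) : hgVis δ F g I ⊆ hgVis δ F g J :=
  fun _ hu => ⟨hu.1, hu.2.imp fun _ hθ => ⟨h hθ.1, hθ.2⟩⟩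

/-- (W0) a visited face is a boundary face. -/
theorem hg_vis_boundary {δ : ℝ} (hδ : 0 < δ) {F : Finset (ℤ × ℤ)} {g : Circle → ℝ × ℝ}
    (hg : Set.range g = frontier (faceRegion δ F)) {I : Set Circle} {u : ℤ × ℤ}
    (hu : u ∈ hgVis δ F g I) : u ∈ F ∧ ∃ v, triAdj u v ∧ v ∉ F := by
  obtain ⟨huF, θ, -, hθ⟩ := hu
  have h1 : g θ ∈ frontier (faceRegion δ F) := hg ▸ mem_range_self θ
  obtain ⟨-, -, v, hv, -, -, hzv⟩ := (hg_mem_frontier_iff hδ F _).1 h1
  refine ⟨huF, v, ?_, hv⟩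
  rcases (hg_inter_nonempty_iff hδ u v).1 ⟨g θ, hθ, hzv⟩ with h | h
  · exact absurd (h ▸ huF) hv
  · exact h

/-- (W3) every boundary face is visited. -/
theorem hg_boundary_vis {δ : ℝ} (hδ : 0 < δ) {F : Finset (ℤ × ℤ)} {g : Circle → ℝ × ℝ}
    (hg : Set.range g = frontier (faceRegion δ F)) {u v : ℤ × ℤ} (hu : u ∈ F) (hv : v ∉ F)
    (huv : triAdj u v) : u ∈ hgVis δ F g univ := by
  have hm := hg_mid_mem_frontier hδ hu hv huv
  rw [← hg] at hm
  obtain ⟨θ, hθ⟩ := hm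
  exact ⟨hu, θ, mem_univ _, hθ ▸ hg_mid_mem_left hδ huv⟩

/-- every parameter visits some face of `F`. -/
theorem hg_param_vis {δ : ℝ} (hδ : 0 < δ) {F : Finset (ℤ × ℤ)} {g : Circle → ℝ × ℝ}
    (hg : Set.range g = frontier (faceRegion δ F)) {I : Set Circle} {θ : Circle} (hθ : θ ∈ I) :
    ∃ u ∈ hgVis δ F g I, g θ ∈ hexFace δ u := by
  have h1 : g θ ∈ frontier (faceRegion δ F) := hg ▸ mem_range_self θ
  obtain ⟨u, hu, -, -, -, hzu, -⟩ := (hg_mem_frontier_iff hδ F _).1 h1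
  exact ⟨u, ⟨hu, θ, hθ, hzu⟩, hzu⟩

/-- **(W1) the faces visited on a connected set of parameters are lattice connected**
(split form). -/
theorem hg_vis_no_split {δ : ℝ} (hδ : 0 < δ) {F : Finset (ℤ × ℤ)} {g : Circle → ℝ × ℝ}
    (hgc : Continuous g) (hg : Set.range g = frontier (faceRegion δ F)) {I : Set Circle}
    (hI : IsPreconnected I) {S : Set (ℤ × ℤ)} (hS : S ⊆ hgVis δ F g I) (hne : S.Nonempty)
    (hcl : ∀ a ∈ S, ∀ b ∈ hgVis δ F g I, triAdj a b → b ∈ S) : S = hgVis δ F g I := by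
  by_contra hSP
  have hT : (hgVis δ F g I \ S).Nonempty := by
    by_contra hc
    rw [Set.not_nonempty_iff_eq_empty, Set.sdiff_eq_empty] at hc
    exact hSP (subset_antisymm hS hc)
  have hconn : IsPreconnected (g '' I) := hI.image g hgc.continuousOn
  have hcov : g '' I ⊆ hgU δ S ∪ hgU δ (hgVis δ F g I \ S) := by
    rw [← hg_U_union, Set.union_sdiff_cancel hS]
    rintro _ ⟨θ, hθ, rfl⟩
    obtain ⟨u, hu, hz⟩ := hg_param_vis hδ hg hθ
    exact hg_mem_U.2 ⟨u, hu, hz⟩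
  have touch : ∀ R : Set (ℤ × ℤ), R ⊆ hgVis δ F g I → R.Nonempty → (g '' I ∩ hgU δ R).Nonempty := by
    rintro R hR ⟨a, ha⟩
    obtain ⟨-, θ, hθ, hz⟩ := hR ha
    exact ⟨g θ, mem_image_of_mem g hθ, hg_mem_U.2 ⟨a, ha, hz⟩⟩
  obtain ⟨z, -, hz1, hz2⟩ := (isPreconnected_closed_iff.1 hconn) _ _ (hg_isClosed_U hδ S)
    (hg_isClosed_U hδ (hgVis δ F g I \ S)) hcov (touch S hS hne) (touch _ Set.sdiff_subset hT)
  obtain ⟨a, ha, hza⟩ := hg_mem_U.1 hz1
  obtain ⟨b, hb, hzb⟩ := hg_mem_U.1 hz2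
  rcases (hg_inter_nonempty_iff hδ a b).1 ⟨z, hza, hzb⟩ with h | h
  · exact hb.2 (h ▸ ha)
  · exact hb.2 (hcl a ha b hb.1 h)

/-- **(W1) path form**: two faces visited on a connected set of parameters are joined by a lattice
path of faces visited on that set. -/
theorem hg_vis_reach {δ : ℝ} (hδ : 0 < δ) {F : Finset (ℤ × ℤ)} {g : Circle → ℝ × ℝ}
    (hgc : Continuous g) (hg : Set.range g = frontier (faceRegion δ F)) {I : Set Circle}
    (hI : IsPreconnected I) {u v : ℤ × ℤ} (hu : u ∈ hgVis δ F g I) (hv : v ∈ hgVis δ F g I) :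
    Relation.ReflTransGen (fun a b => triAdj a b ∧ b ∈ hgVis δ F g I) u v :=
  hg_reach_of_no_split (fun _ hS hne hcl => hg_vis_no_split hδ hgc hg hI hS hne hcl) hu hv

/-- **(W2) the faces visited on `I` stay near `γ '' I`.** -/
theorem hg_vis_near {D : Set (ℝ × ℝ)} {δ : ℕ → ℝ} {F : ℕ → Finset (ℤ × ℤ)} {γ : Circle → ℝ × ℝ}
    {γs : ℕ → Circle → ℝ × ℝ} (h : IsInsideApprox D δ F) (hb : HgBd D δ F γ γs) {ε : ℝ}
    (hε : 0 < ε) :
    ∀ᶠ n in atTop, ∀ I : Set Circle, ∀ u ∈ hgVis (δ n) (F n) (γs n) I,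
      ∃ θ ∈ I, dist (triPos (δ n) u) (γ θ) < ε := by
  have h3 : ∀ᶠ n in atTop, δ n < ε / 2 := h.2.1.eventually (gt_mem_nhds (by positivity))
  filter_upwards [hg_bd_dist hb (half_pos hε), h3] with n hn1 hn2 I u hu
  obtain ⟨-, θ, hθ, hz⟩ := hu
  refine ⟨θ, hθ, ?_⟩
  have e2 : dist (triPos (δ n) u) (γs n θ) ≤ δ n := by
    rw [dist_comm]; exact hg_dist_center_le (h.1 n) hz
  have := dist_triangle (triPos (δ n) u) (γs n θ) (γ θ)
  linarith [hn1 θ]

/-- the limiting parametrisation separates a compact set of parameters from the complement of a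
neighbourhood. -/
theorem hg_param_gap {γ : Circle → ℝ × ℝ} (hc : Continuous γ) (hi : Function.Injective γ)
    {J N : Set Circle} (hJ : IsCompact J) (hN : IsOpen N) (hJN : J ⊆ N) :
    ∃ ε : ℝ, 0 < ε ∧ ∀ θ' ∈ J, ∀ θ, dist (γ θ) (γ θ') < ε → θ ∈ N := by
  have hK : IsCompact (γ '' J) := hJ.image hc
  have hC : IsClosed (γ '' Nᶜ) := (hN.isClosed_compl.isCompact.image hc).isClosed
  have hdisj : Disjoint (γ '' J) (γ '' Nᶜ) := by
    rw [Set.disjoint_left]
    rintro _ ⟨a, ha, rfl⟩ ⟨b, hb, hab⟩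
    exact hb (hi hab ▸ hJN ha)
  obtain ⟨r, hr, hr'⟩ := hK.exists_thickening_subset_open hC.isOpen_compl
    (Set.subset_compl_iff_disjoint_right.2 hdisj)
  refine ⟨r, hr, fun θ' hθ' θ hd => ?_⟩
  by_contra hθ
  have h1 : γ θ ∈ Metric.thickening r (γ '' J) :=
    Metric.mem_thickening_iff.2 ⟨γ θ', mem_image_of_mem γ hθ', hd⟩
  exact hr' h1 (mem_image_of_mem γ hθ)

/-- **(W4) localisation of the parameters**: a visit of `γs n` near `γ '' J` has its parameter in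
the neighbourhood `N` of `J`. -/
theorem hg_param_local {D : Set (ℝ × ℝ)} {δ : ℕ → ℝ} {F : ℕ → Finset (ℤ × ℤ)} {γ : Circle → ℝ × ℝ}
    {γs : ℕ → Circle → ℝ × ℝ} (hb : HgBd D δ F γ γs) {J N : Set Circle} (hJ : IsCompact J)
    (hN : IsOpen N) (hJN : J ⊆ N) :
    ∃ ε : ℝ, 0 < ε ∧ ∀ᶠ n in atTop, ∀ θ' ∈ J, ∀ θ, dist (γs n θ) (γ θ') < ε → θ ∈ N := by
  obtain ⟨ε, hε, h1⟩ := hg_param_gap hb.1 hb.2.1 hJ hN hJN
  refine ⟨ε / 2, half_pos hε, ?_⟩
  filter_upwards [hg_bd_dist hb (half_pos hε)] with n hn θ' hθ' θ hd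
  apply h1 θ' hθ' θ
  have := dist_triangle (γ θ) (γs n θ) (γ θ')
  have h2 := hn θ
  rw [dist_comm] at h2
  linarith

/-- **(W6) local connection along the boundary**: all boundary faces near the patch `γ '' J` are
visited on the larger parameter set `N`; if `N` is connected they are therefore joined inside
`hgVis … N` (by `hg_vis_reach`), which stays near `γ '' N` (by `hg_vis_near`). -/
theorem hg_boundary_patch {D : Set (ℝ × ℝ)} {δ : ℕ → ℝ} {F : ℕ → Finset (ℤ × ℤ)}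
    {γ : Circle → ℝ × ℝ} {γs : ℕ → Circle → ℝ × ℝ} (h : IsInsideApprox D δ F)
    (hb : HgBd D δ F γ γs) {J N : Set Circle} (hJ : IsCompact J) (hN : IsOpen N) (hJN : J ⊆ N) :
    ∃ ε : ℝ, 0 < ε ∧ ∀ᶠ n in atTop, ∀ u ∈ F n, (∃ v, triAdj u v ∧ v ∉ F n) →
      (∃ θ' ∈ J, dist (triPos (δ n) u) (γ θ') < ε) → u ∈ hgVis (δ n) (F n) (γs n) N := by
  obtain ⟨ε, hε, h1⟩ := hg_param_local hb hJ hN hJN
  refine ⟨ε / 2, half_pos hε, ?_⟩
  have h3 : ∀ᶠ n in atTop, δ n < ε / 2 := h.2.1.eventually (gt_mem_nhds (by positivity))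
  filter_upwards [h1, h3] with n hn1 hn2 u hu hv hθ'
  obtain ⟨v, huv, hv⟩ := hv
  obtain ⟨θ', hθ', hd⟩ := hθ'
  obtain ⟨-, θ, -, hz⟩ := hg_boundary_vis (h.1 n) (hb.2.2.2.1 n).2.2 hu hv huv
  refine ⟨hu, θ, hn1 θ' hθ' θ ?_, hz⟩
  have e2 : dist (γs n θ) (triPos (δ n) u) ≤ δ n := hg_dist_center_le (h.1 n) hz
  have := dist_triangle (γs n θ) (triPos (δ n) u) (γ θ')
  linarith

/-- (W5) a set of lattice points that contains a face of `F`, avoids the boundary faces and is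
closed under adjacency away from them would stay in `F`: every lattice path leaving `F` meets a
boundary face. -/
theorem hg_exit_through_boundary {F : Finset (ℤ × ℤ)} {u w : ℤ × ℤ} (hu : u ∈ F) (hw : w ∉ F)
    (hp : Relation.ReflTransGen triAdj u w) :
    ∃ a b, Relation.ReflTransGen triAdj u a ∧ a ∈ F ∧ triAdj a b ∧ b ∉ F := by
  induction hp with
  | refl => exact absurd hu hw
  | @tail b c hab hbc ih =>
    by_cases hb : b ∈ F
    · exact ⟨b, c, hab, hb, hbc, hw⟩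
    · exact ih hb

/-! ## The exact area of a face -/

theorem hg_abs_mul_le_sq {δ : ℝ} (hδ : 0 < δ) (X : ℝ) : |δ * X| ≤ δ ^ 2 ↔ |X| ≤ δ := by
  rw [abs_mul, abs_of_pos hδ, sq, mul_le_mul_iff_right₀ hδ]

/-- the face in Cartesian coordinates. -/
theorem hg_mem_hexFace_cart {δ : ℝ} (hδ : 0 < δ) (u : ℤ × ℤ) (x y : ℝ) :
    (x, y) ∈ hexFace δ u ↔ |x - (triPos δ u).1| ≤ δ / 2 ∧
      Real.sqrt 3 * |y - (triPos δ u).2| ≤ δ - |x - (triPos δ u).1| := by
  rw [hg_mem_hexFace_iff]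
  unfold hgA hgB
  simp only
  set a := x - (triPos δ u).1
  set b := y - (triPos δ u).2
  have hs : 0 < Real.sqrt 3 := Real.sqrt_pos.2 (by norm_num)
  set s := Real.sqrt 3
  have e1 : 2 * δ * a = δ * (2 * a) := by ring
  have e2 : δ * a + δ * s * b = δ * (a + s * b) := by ring
  have e3 : δ * (2 * a) - δ * (a + s * b) = δ * (a - s * b) := by ring
  rw [e1, e2, e3, hg_abs_mul_le_sq hδ, hg_abs_mul_le_sq hδ, hg_abs_mul_le_sq hδ]
  have e4 : s * |b| = |s * b| := by rw [abs_mul, abs_of_pos hs]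
  rw [e4]
  set c := s * b
  constructor
  · rintro ⟨h1, h2, h3⟩
    obtain ⟨a1, a2⟩ := abs_le.1 h1
    obtain ⟨b1, b2⟩ := abs_le.1 h2
    obtain ⟨c1, c2⟩ := abs_le.1 h3
    refine ⟨abs_le.2 ⟨by linarith, by linarith⟩, ?_⟩
    rcases abs_cases a with ⟨ha, _⟩ | ⟨ha, _⟩ <;> rcases abs_cases c with ⟨hc, _⟩ | ⟨hc, _⟩ <;>
      rw [ha, hc] <;> linarith
  · rintro ⟨h1, h2⟩
    obtain ⟨a1, a2⟩ := abs_le.1 h1
    have k1 := le_abs_self a
    have k2 := neg_abs_le a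
    have k3 := le_abs_self c
    have k4 := neg_abs_le c
    refine ⟨abs_le.2 ⟨by linarith, by linarith⟩, abs_le.2 ⟨by linarith, by linarith⟩,
      abs_le.2 ⟨by linarith, by linarith⟩⟩

theorem hg_slice_volume {δ : ℝ} (hδ : 0 < δ) (u : ℤ × ℤ) (x : ℝ) :
    volume (Prod.mk x ⁻¹' hexFace δ u) =
      (Icc ((triPos δ u).1 - δ / 2) ((triPos δ u).1 + δ / 2)).indicator
        (fun x => ENNReal.ofReal (2 / Real.sqrt 3 * (δ - |x - (triPos δ u).1|))) x := by
  have hs : 0 < Real.sqrt 3 := Real.sqrt_pos.2 (by norm_num)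
  by_cases hx : |x - (triPos δ u).1| ≤ δ / 2
  · have hx' : x ∈ Icc ((triPos δ u).1 - δ / 2) ((triPos δ u).1 + δ / 2) := by
      obtain ⟨a1, a2⟩ := abs_le.1 hx
      exact ⟨by linarith, by linarith⟩
    rw [indicator_of_mem hx']
    have : Prod.mk x ⁻¹' hexFace δ u =
        Icc ((triPos δ u).2 - (δ - |x - (triPos δ u).1|) / Real.sqrt 3)
          ((triPos δ u).2 + (δ - |x - (triPos δ u).1|) / Real.sqrt 3) := by
      ext y
      rw [mem_preimage, hg_mem_hexFace_cart hδ, mem_Icc]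
      constructor
      · rintro ⟨-, h2⟩
        have h3 : |y - (triPos δ u).2| ≤ (δ - |x - (triPos δ u).1|) / Real.sqrt 3 := by
          rw [le_div_iff₀ hs]; linarith
        obtain ⟨a1, a2⟩ := abs_le.1 h3
        exact ⟨by linarith, by linarith⟩
      · rintro ⟨h1, h2⟩
        refine ⟨hx, ?_⟩
        have h3 : |y - (triPos δ u).2| ≤ (δ - |x - (triPos δ u).1|) / Real.sqrt 3 :=
          abs_le.2 ⟨by linarith, by linarith⟩
        rw [le_div_iff₀ hs] at h3; linarith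
    rw [this, Real.volume_Icc]
    congr 1
    field_simp
    ring
  · have hx' : x ∉ Icc ((triPos δ u).1 - δ / 2) ((triPos δ u).1 + δ / 2) := by
      intro h
      exact hx (abs_le.2 ⟨by linarith [h.1], by linarith [h.2]⟩)
    rw [indicator_of_notMem hx']
    have : Prod.mk x ⁻¹' hexFace δ u = ∅ := by
      ext y
      rw [mem_preimage, hg_mem_hexFace_cart hδ]
      simp [hx]
    rw [this, measure_empty]

theorem hg_integral_tent (p δ : ℝ) (hδ : 0 < δ) :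
    ∫ x in Icc (p - δ / 2) (p + δ / 2), (δ - |x - p|) = 3 / 4 * δ ^ 2 := by
  rw [integral_Icc_eq_integral_Ioc, ← intervalIntegral.integral_of_le (by linarith),
    ← intervalIntegral.integral_add_adjacent_intervals (b := p)]
  · have h1 : ∫ x in (p - δ / 2)..p, (δ - |x - p|) = ∫ x in (p - δ / 2)..p, (δ + (x - p)) := by
      apply intervalIntegral.integral_congr
      intro x hx
      rw [uIcc_of_le (by linarith)] at hx
      simp only
      rw [abs_of_nonpos (by linarith [hx.2])]; ring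
    have h2 : ∫ x in p..(p + δ / 2), (δ - |x - p|) = ∫ x in p..(p + δ / 2), (δ - (x - p)) := by
      apply intervalIntegral.integral_congr
      intro x hx
      rw [uIcc_of_le (by linarith)] at hx
      simp only
      rw [abs_of_nonneg (by linarith [hx.1])]
    rw [h1, h2]
    have i1 : ∀ a b : ℝ, IntervalIntegrable (fun _ : ℝ => δ) volume a b := fun a b =>
      (continuous_const).intervalIntegrable a b
    have i2 : ∀ a b : ℝ, IntervalIntegrable (fun x : ℝ => x - p) volume a b := fun a b =>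
      (Continuous.intervalIntegrable (by fun_prop) a b)
    have i3 : ∀ a b : ℝ, IntervalIntegrable (fun x : ℝ => x) volume a b := fun a b =>
      (continuous_id).intervalIntegrable a b
    have i4 : ∀ a b : ℝ, IntervalIntegrable (fun _ : ℝ => p) volume a b := fun a b =>
      (continuous_const).intervalIntegrable a b
    rw [intervalIntegral.integral_add (i1 _ _) (i2 _ _), intervalIntegral.integral_sub (i1 _ _) (i2 _ _),
      intervalIntegral.integral_sub (i3 _ _) (i4 _ _), intervalIntegral.integral_sub (i3 _ _) (i4 _ _)]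
    simp only [integral_id, intervalIntegral.integral_const, smul_eq_mul]
    ring
  · exact (Continuous.intervalIntegrable (by fun_prop) _ _)
  · exact (Continuous.intervalIntegrable (by fun_prop) _ _)

/-- **the area of a face is `(√3/2) δ²`.** -/
theorem hg_volume_hexFace {δ : ℝ} (hδ : 0 < δ) (u : ℤ × ℤ) :
    volume (hexFace δ u) = ENNReal.ofReal (Real.sqrt 3 / 2 * δ ^ 2) := by
  have hs : 0 < Real.sqrt 3 := Real.sqrt_pos.2 (by norm_num)
  rw [Measure.volume_eq_prod, Measure.prod_apply (hg_measurableSet_hexFace δ u)]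
  simp_rw [hg_slice_volume hδ u]
  rw [lintegral_indicator measurableSet_Icc, ← ofReal_integral_eq_lintegral_ofReal]
  · rw [integral_const_mul, hg_integral_tent _ _ hδ]
    congr 1
    have := hg_sqrt3_sq
    field_simp
    nlinarith
  · exact (Continuous.integrableOn_Icc (by fun_prop))
  · rw [Filter.EventuallyLE, ae_restrict_iff' measurableSet_Icc]
    refine Eventually.of_forall fun x hx => ?_
    have : |x - (triPos δ u).1| ≤ δ / 2 := abs_le.2 ⟨by linarith [hx.1], by linarith [hx.2]⟩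
    simp only [Pi.zero_apply]
    have h2 : 0 ≤ δ - |x - (triPos δ u).1| := by linarith
    positivity

/-- sharp bound of a face weight. -/
theorem hg_abs_face_integral_le' {δ : ℝ} (hδ : 0 < δ) (u : ℤ × ℤ) {f : ℝ × ℝ → ℝ} {M : ℝ}
    (hM : ∀ z ∈ hexFace δ u, |f z| ≤ M) :
    |∫ z in hexFace δ u, f z| ≤ M * (Real.sqrt 3 / 2 * δ ^ 2) := by
  have h1 := norm_setIntegral_le_of_norm_le_const (μ := volume) (s := hexFace δ u) (f := f) (C := M)
    (hg_volume_hexFace_lt_top hδ u) (fun z hz => by rw [Real.norm_eq_abs]; exact hM z hz)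
  rw [Real.norm_eq_abs, Measure.real, hg_volume_hexFace hδ u,
    ENNReal.toReal_ofReal (by positivity)] at h1
  exact h1

theorem hg_face_integral_abs_le {δ : ℝ} (hδ : 0 < δ) (u : ℤ × ℤ) {f : ℝ × ℝ → ℝ} {M : ℝ}
    (hM : ∀ z ∈ hexFace δ u, |f z| ≤ M) :
    ∫ z in hexFace δ u, |f z| ≤ M * (Real.sqrt 3 / 2 * δ ^ 2) := by
  have h1 := hg_abs_face_integral_le' hδ u (f := fun z => |f z|) (M := M)
    (fun z hz => by rw [abs_abs]; exact hM z hz)
  exact (le_abs_self _).trans h1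

/-! ## Macroscopic lattice balls ([FRZ] (b) of LIM, helper181) -/

/-- scaling of the distance between lattice points. -/
theorem hg_sqDist_triPos_scale (δ : ℝ) (u v : ℤ × ℤ) :
    sqDist (triPos δ u) (triPos δ v) = δ ^ 2 * sqDist (triPos 1 u) (triPos 1 v) := by
  rw [hg_sqDist_triPos, hg_sqDist_triPos]; ring

/-- **a lattice ball of macroscopic radius about a face meeting a compact subset of `D` lies in
`F n`.** -/
theorem hg_lattice_ball_subset {D : Set (ℝ × ℝ)} (hDo : IsOpen D) {δ : ℕ → ℝ}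
    {F : ℕ → Finset (ℤ × ℤ)} (h : IsInsideApprox D δ F) {K : Set (ℝ × ℝ)} (hK : IsCompact K)
    (hKD : K ⊆ D) :
    ∃ c : ℝ, 0 < c ∧ ∀ᶠ n in atTop, ∀ u : ℤ × ℤ, (hexFace (δ n) u ∩ K).Nonempty →
      ∀ v : ℤ × ℤ, sqDist (triPos 1 v) (triPos 1 u) ≤ (c / δ n) ^ 2 → v ∈ F n := by
  obtain ⟨r, hr, hrD⟩ := hK.exists_cthickening_subset_open hDo hKD
  have h1 := h.2.2.2.1 _ hK.cthickening hrD
  have h2 : ∀ᶠ n in atTop, δ n < r / 2 := h.2.1.eventually (gt_mem_nhds (by positivity))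
  refine ⟨r / 2, by positivity, ?_⟩
  filter_upwards [h1, h2] with n hn1 hn2 u hu v hv
  obtain ⟨z, hz1, hz2⟩ := hu
  have hδ := h.1 n
  apply hg_mem_of_center_mem hδ
  apply hn1
  apply Metric.mem_cthickening_of_dist_le _ z r K hz2
  have e1 : dist (triPos (δ n) u) z ≤ δ n := by rw [dist_comm]; exact hg_dist_center_le hδ hz1
  have e2 : dist (triPos (δ n) v) (triPos (δ n) u) ≤ r / 2 := by
    have a1 := hg_dist_sq_le_sqDist (triPos (δ n) v) (triPos (δ n) u)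
    rw [hg_sqDist_triPos_scale] at a1
    have a2 : δ n ^ 2 * sqDist (triPos 1 v) (triPos 1 u) ≤ (r / 2) ^ 2 := by
      have : δ n ^ 2 * (r / 2 / δ n) ^ 2 = (r / 2) ^ 2 := by field_simp
      rw [← this]
      exact mul_le_mul_of_nonneg_left hv (by positivity)
    exact abs_le_of_sq_le_sq' (a1.trans a2) (by positivity) |>.2
  have := dist_triangle (triPos (δ n) v) (triPos (δ n) u) z
  linarith

/-- **no lattice ball of radius `R / δ n` fits in `F n`** (`D` bounded). -/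
theorem hg_lattice_ball_not_subset {D : Set (ℝ × ℝ)} (hDb : Bornology.IsBounded D) {δ : ℕ → ℝ}
    {F : ℕ → Finset (ℤ × ℤ)} (h : IsInsideApprox D δ F) :
    ∃ R : ℝ, 0 < R ∧ ∀ n, ∀ u : ℤ × ℤ,
      ∃ v : ℤ × ℤ, sqDist (triPos 1 v) (triPos 1 u) ≤ (R / δ n) ^ 2 ∧ v ∉ F n := by
  obtain ⟨M, hM⟩ := hDb.subset_closedBall (0 : ℝ × ℝ)
  obtain ⟨B, hB⟩ := h.2.1.bddAbove_range
  have hB' : ∀ n, δ n ≤ B := fun n => hB (mem_range_self n)
  have hB0 : 0 < B := lt_of_lt_of_le (h.1 0) (hB' 0)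
  have hM0 : 0 ≤ |M| := abs_nonneg M
  refine ⟨2 * |M| + 2 * B, by positivity, fun n u => ?_⟩
  have hδ := h.1 n
  by_cases hu : u ∈ F n
  swap
  · exact ⟨u, by rw [hg_sqDist_self]; positivity, hu⟩
  set k : ℤ := ⌈2 * |M| / δ n⌉ + 1 with hk
  have hk1 : 2 * |M| / δ n < k := by
    rw [hk]; push_cast; linarith [Int.le_ceil (2 * |M| / δ n)]
  have hk2 : (k : ℝ) ≤ 2 * |M| / δ n + 2 := by
    rw [hk]; push_cast; linarith [Int.ceil_lt_add_one (2 * |M| / δ n)]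
  have hk0 : (0 : ℝ) ≤ k := le_trans (by positivity) hk1.le
  refine ⟨(u.1 + k, u.2), ?_, fun hv => ?_⟩
  · rw [hg_sqDist_triPos]
    simp only [add_sub_cancel_left, sub_self, Int.cast_zero, mul_zero, add_zero, one_pow, one_mul]
    have e1 : (k : ℝ) ≤ (2 * |M| + 2 * B) / δ n := by
      rw [add_div]
      have : 2 ≤ 2 * B / δ n := by rw [le_div_iff₀ hδ]; linarith [hB' n]
      linarith
    have : (k : ℝ) ^ 2 + (0 : ℝ) ^ 2 = (k : ℝ) ^ 2 := by ring
    rw [this]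
    exact pow_le_pow_left₀ hk0 e1 2
  · have a1 := hM (hg_center_mem_D h hu)
    have a2 := hM (hg_center_mem_D h hv)
    rw [Metric.mem_closedBall, dist_zero_right] at a1 a2
    have b1 : |(triPos (δ n) u).1| ≤ M := (norm_fst_le _).trans a1
    have b2 : |(triPos (δ n) (u.1 + k, u.2)).1| ≤ M := (norm_fst_le _).trans a2
    have b3 : (triPos (δ n) (u.1 + k, u.2)).1 = (triPos (δ n) u).1 + δ n * k := by
      unfold triPos; push_cast; ring
    have b4 : 2 * |M| < δ n * k := by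
      rw [div_lt_iff₀ hδ] at hk1; linarith
    have b5 := le_abs_self M
    have c1 := abs_le.1 b1
    have c2 := abs_le.1 b2
    rw [b3] at c2
    linarith [c1.1, c2.2]

/-! ## The interface (A1)-(A5) of PIN (helper34, notes/R291/sec5_34.md, D2), non-asymptotic -/

/-- **(A1)** the faces visited on the whole circle are exactly the boundary faces. -/
theorem hg_vis_univ_eq {δ : ℝ} (hδ : 0 < δ) {F : Finset (ℤ × ℤ)} {g : Circle → ℝ × ℝ}
    (hg : Set.range g = frontier (faceRegion δ F)) :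
    hgVis δ F g univ = {u | u ∈ F ∧ ∃ v, triAdj u v ∧ v ∉ F} := by
  ext u
  constructor
  · exact fun hu => hg_vis_boundary hδ hg hu
  · rintro ⟨hu, v, huv, hv⟩
    exact hg_boundary_vis hδ hg hu hv huv

/-- **(A2)** in the symmetric carrier: both ends of every step are visited faces. -/
theorem hg_vis_reach' {δ : ℝ} (hδ : 0 < δ) {F : Finset (ℤ × ℤ)} {g : Circle → ℝ × ℝ}
    (hgc : Continuous g) (hg : Set.range g = frontier (faceRegion δ F)) {I : Set Circle}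
    (hI : IsPreconnected I) {u v : ℤ × ℤ} (hu : u ∈ hgVis δ F g I) (hv : v ∈ hgVis δ F g I) :
    Relation.ReflTransGen (fun a b => triAdj a b ∧ a ∈ hgVis δ F g I ∧ b ∈ hgVis δ F g I) u v := by
  have h1 := hg_vis_reach hδ hgc hg hI hu hv
  have h2 : ∀ w, Relation.ReflTransGen (fun a b => triAdj a b ∧ b ∈ hgVis δ F g I) u w →
      w ∈ hgVis δ F g I ∧
      Relation.ReflTransGen (fun a b => triAdj a b ∧ a ∈ hgVis δ F g I ∧ b ∈ hgVis δ F g I) u w := by
    intro w hw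
    induction hw with
    | refl => exact ⟨hu, Relation.ReflTransGen.refl⟩
    | tail _ hbc ih => exact ⟨hbc.2, ih.2.tail ⟨hbc.1, ih.1, hbc.2⟩⟩
  exact (h2 v h1).2

/-- **(A3)** a face visited on `K` is within `e + δ` of `γ '' K`, `e` any bound of the distance of
the two parametrisations. -/
theorem hg_vis_dist_le {δ : ℝ} (hδ : 0 < δ) {F : Finset (ℤ × ℤ)} {g γ : Circle → ℝ × ℝ} {e : ℝ}
    (he : ∀ θ, dist (g θ) (γ θ) ≤ e) {K : Set Circle} {u : ℤ × ℤ} (hu : u ∈ hgVis δ F g K) :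
    ∃ θ ∈ K, g θ ∈ hexFace δ u ∧ dist (triPos δ u) (γ θ) ≤ e + δ := by
  obtain ⟨-, θ, hθ, hz⟩ := hu
  refine ⟨θ, hθ, hz, ?_⟩
  have e2 : dist (triPos δ u) (g θ) ≤ δ := by rw [dist_comm]; exact hg_dist_center_le hδ hz
  have := dist_triangle (triPos δ u) (g θ) (γ θ)
  linarith [he θ]

/-- **(A4)** unions of parameter sets. -/
theorem hg_vis_union (δ : ℝ) (F : Finset (ℤ × ℤ)) (g : Circle → ℝ × ℝ) (K₁ K₂ : Set Circle) :
    hgVis δ F g (K₁ ∪ K₂) = hgVis δ F g K₁ ∪ hgVis δ F g K₂ := by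
  ext u
  constructor
  · rintro ⟨hu, θ, hθ | hθ, hz⟩
    · exact Or.inl ⟨hu, θ, hθ, hz⟩
    · exact Or.inr ⟨hu, θ, hθ, hz⟩
  · rintro (hu | hu)
    · exact hg_vis_mono subset_union_left hu
    · exact hg_vis_mono subset_union_right hu

theorem hg_vis_iUnion {ι : Type*} (δ : ℝ) (F : Finset (ℤ × ℤ)) (g : Circle → ℝ × ℝ)
    (K : ι → Set Circle) : hgVis δ F g (⋃ i, K i) = ⋃ i, hgVis δ F g (K i) := by
  ext u
  simp only [hgVis, mem_ofPred_eq, mem_iUnion]
  constructor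
  · rintro ⟨hu, θ, ⟨i, hi⟩, hz⟩
    exact ⟨i, hu, θ, hi, hz⟩
  · rintro ⟨i, hu, θ, hi, hz⟩
    exact ⟨hu, θ, ⟨i, hi⟩, hz⟩

/-- **(A5)** a face visited on `K₁` and on `K₂` forces two parameters with near images. -/
theorem hg_vis_inter_dist {δ : ℝ} (hδ : 0 < δ) {F : Finset (ℤ × ℤ)} {g γ : Circle → ℝ × ℝ} {e : ℝ}
    (he : ∀ θ, dist (g θ) (γ θ) ≤ e) {K₁ K₂ : Set Circle} {u : ℤ × ℤ} (h1 : u ∈ hgVis δ F g K₁)
    (h2 : u ∈ hgVis δ F g K₂) :
    ∃ θ₁ ∈ K₁, ∃ θ₂ ∈ K₂, dist (γ θ₁) (γ θ₂) ≤ 2 * e + 2 * δ := by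
  obtain ⟨θ₁, hθ₁, -, d1⟩ := hg_vis_dist_le hδ he h1
  obtain ⟨θ₂, hθ₂, -, d2⟩ := hg_vis_dist_le hδ he h2
  refine ⟨θ₁, hθ₁, θ₂, hθ₂, ?_⟩
  have := dist_triangle (γ θ₁) (triPos δ u) (γ θ₂)
  rw [dist_comm (γ θ₁) (triPos δ u)] at this
  linarith

/-- adjacent (or equal) faces visited on `K₁` and `K₂`: same conclusion with one more mesh. -/
theorem hg_vis_adj_dist {δ : ℝ} (hδ : 0 < δ) {F : Finset (ℤ × ℤ)} {g γ : Circle → ℝ × ℝ} {e : ℝ}
    (he : ∀ θ, dist (g θ) (γ θ) ≤ e) {K₁ K₂ : Set Circle} {u v : ℤ × ℤ} (h1 : u ∈ hgVis δ F g K₁)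
    (h2 : v ∈ hgVis δ F g K₂) (huv : triAdj u v) :
    ∃ θ₁ ∈ K₁, ∃ θ₂ ∈ K₂, dist (γ θ₁) (γ θ₂) ≤ 2 * e + 3 * δ := by
  obtain ⟨θ₁, hθ₁, -, d1⟩ := hg_vis_dist_le hδ he h1
  obtain ⟨θ₂, hθ₂, -, d2⟩ := hg_vis_dist_le hδ he h2
  refine ⟨θ₁, hθ₁, θ₂, hθ₂, ?_⟩
  have t1 := dist_triangle (γ θ₁) (triPos δ u) (γ θ₂)
  have t2 := dist_triangle (triPos δ u) (triPos δ v) (γ θ₂)
  have t3 := hg_dist_of_triAdj hδ huv
  rw [dist_comm (γ θ₁) (triPos δ u)] at t1
  linarith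

/-- the sup distance of the two parametrisations: a sequence `e n → 0` of bounds. -/
theorem hg_bd_exists_bound {D : Set (ℝ × ℝ)} {δ : ℕ → ℝ} {F : ℕ → Finset (ℤ × ℤ)}
    {γ : Circle → ℝ × ℝ} {γs : ℕ → Circle → ℝ × ℝ} (hb : HgBd D δ F γ γs) :
    ∃ e : ℕ → ℝ, (∀ n, 0 ≤ e n) ∧ Tendsto e atTop (𝓝 0) ∧ ∀ n θ, dist (γs n θ) (γ θ) ≤ e n := by
  have hbdd : ∀ n, BddAbove (Set.range fun θ => dist (γs n θ) (γ θ)) := fun n =>
    (isCompact_range ((hb.2.2.2.1 n).1.dist hb.1)).bddAbove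
  refine ⟨fun n => ⨆ θ, dist (γs n θ) (γ θ), fun n => Real.iSup_nonneg fun θ => dist_nonneg, ?_,
    fun n θ => le_ciSup (hbdd n) θ⟩
  rw [Metric.tendsto_atTop]
  intro ε hε
  obtain ⟨N, hN⟩ := eventually_atTop.1 (hg_bd_dist hb (half_pos hε))
  refine ⟨N, fun n hn => ?_⟩
  rw [Real.dist_eq, sub_zero, abs_of_nonneg (Real.iSup_nonneg fun θ => dist_nonneg)]
  have : ⨆ θ, dist (γs n θ) (γ θ) ≤ ε / 2 := ciSup_le fun θ => (hN n hn θ).le
  linarith

end Claimed.Agent.R291
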