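/-
Row 291 (S0539), unit FRZ, geometry half (owner helper172), third file.  Prefix `hg_`.
Bridge between the lattice vocabulary of `Defs/Lat` (`latN`, `latBall`, `latInt`, `latBd`, `latW`,
`latPair`, `latRot`, `latRefl`) and the Euclidean geometry of the frozen faces (`Geo/Hex`,
`Geo/Region`).
-/
import Claimed.Agent.R291.Defs.Lat
import Claimed.Agent.R291.Geo.Region

set_option autoImplicit false
open Claims.C0467 MeasureTheory Filter Topology Set
open scoped Pointwise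

namespace Claimed.Agent.R291

/-! ## 1. the hexagonal norm and the Euclidean form -/

theorem hg_latN_spec (d : TV) :
    |d.1| ≤ (latN d : ℤ) ∧ |d.2| ≤ (latN d : ℤ) ∧ |d.1 + d.2| ≤ (latN d : ℤ) ∧
      ((latN d : ℤ) = |d.1| ∨ (latN d : ℤ) = |d.2| ∨ (latN d : ℤ) = |d.1 + d.2|) := by
  unfold latN
  simp only [Int.abs_eq_natAbs]
  refine ⟨?_, ?_, ?_, ?_⟩ <;> omega

/-- the Euclidean form is at most the square of the hexagonal norm. -/
theorem hg_form_le_latN_sq (d : TV) : d.1 ^ 2 + d.1 * d.2 + d.2 ^ 2 ≤ (latN d : ℤ) ^ 2 := by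
  obtain ⟨h1, h2, h3, -⟩ := hg_latN_spec d
  set m : ℤ := (latN d : ℤ)
  set a := d.1
  set b := d.2
  have a1 : a ^ 2 ≤ m ^ 2 := sq_le_sq' (by linarith [(abs_le.1 h1).1]) (abs_le.1 h1).2
  have a2 : b ^ 2 ≤ m ^ 2 := sq_le_sq' (by linarith [(abs_le.1 h2).1]) (abs_le.1 h2).2
  have a3 : (a + b) ^ 2 ≤ m ^ 2 := sq_le_sq' (by linarith [(abs_le.1 h3).1]) (abs_le.1 h3).2
  by_cases c1 : 0 ≤ a * b
  · nlinarith
  by_cases c2 : b * (a + b) ≤ 0
  · nlinarith
  by_cases c3 : a * (a + b) ≤ 0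
  · nlinarith
  exfalso
  push Not at c1 c2 c3
  nlinarith [mul_pos c2 c3, mul_self_nonneg (a + b),
    mul_nonneg (mul_self_nonneg (a + b)) (by linarith : 0 ≤ -(a * b))]

/-- the square of the hexagonal norm is at most `4/3` of the Euclidean form. -/
theorem hg_latN_sq_le (d : TV) : 3 * (latN d : ℤ) ^ 2 ≤ 4 * (d.1 ^ 2 + d.1 * d.2 + d.2 ^ 2) := by
  obtain ⟨-, -, -, h⟩ := hg_latN_spec d
  rcases h with h | h | h <;> rw [h, sq_abs]
  · nlinarith [sq_nonneg (d.1 + 2 * d.2)]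
  · nlinarith [sq_nonneg (2 * d.1 + d.2)]
  · nlinarith [sq_nonneg (d.1 - d.2)]

/-- Euclidean distance of two lattice points from above. -/
theorem hg_sqDist_le_latN (δ : ℝ) (u v : TV) :
    sqDist (triPos δ u) (triPos δ v) ≤ δ ^ 2 * (latN (u - v) : ℝ) ^ 2 := by
  rw [hg_sqDist_triPos]
  have h := hg_form_le_latN_sq (u - v)
  have h' : ((u.1 - v.1 : ℤ) : ℝ) ^ 2 + ((u.1 - v.1 : ℤ) : ℝ) * ((u.2 - v.2 : ℤ) : ℝ)
      + ((u.2 - v.2 : ℤ) : ℝ) ^ 2 ≤ (latN (u - v) : ℝ) ^ 2 := by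
    have : (((u - v).1 ^ 2 + (u - v).1 * (u - v).2 + (u - v).2 ^ 2 : ℤ) : ℝ)
        ≤ (((latN (u - v) : ℤ) ^ 2 : ℤ) : ℝ) := by exact_mod_cast h
    push_cast at this
    simpa using this
  exact mul_le_mul_of_nonneg_left h' (sq_nonneg δ)

/-- Euclidean distance of two lattice points from below. -/
theorem hg_latN_le_sqDist (δ : ℝ) (u v : TV) :
    3 / 4 * (δ ^ 2 * (latN (u - v) : ℝ) ^ 2) ≤ sqDist (triPos δ u) (triPos δ v) := by
  rw [hg_sqDist_triPos]
  have h := hg_latN_sq_le (u - v)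
  have h' : 3 * (latN (u - v) : ℝ) ^ 2 ≤ 4 * (((u.1 - v.1 : ℤ) : ℝ) ^ 2
      + ((u.1 - v.1 : ℤ) : ℝ) * ((u.2 - v.2 : ℤ) : ℝ) + ((u.2 - v.2 : ℤ) : ℝ) ^ 2) := by
    have : ((3 * (latN (u - v) : ℤ) ^ 2 : ℤ) : ℝ)
        ≤ ((4 * ((u - v).1 ^ 2 + (u - v).1 * (u - v).2 + (u - v).2 ^ 2) : ℤ) : ℝ) := by
      exact_mod_cast h
    push_cast at this
    simpa using this
  nlinarith [sq_nonneg δ]

theorem hg_latN_neg (d : TV) : latN (-d) = latN d := by
  unfold latN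
  simp only [Prod.fst_neg, Prod.snd_neg, Int.natAbs_neg]
  congr 1
  rw [← neg_add, Int.natAbs_neg]

theorem hg_latN_sub_comm (u v : TV) : latN (u - v) = latN (v - u) := by
  rw [← neg_sub, hg_latN_neg]

/-- crude cardinality of a hexagon. -/
theorem hg_card_latBall_le (c : TV) (r : ℕ) : (latBall c r).card ≤ (2 * r + 1) ^ 2 := by
  unfold latBall
  refine (Finset.card_filter_le _ _).trans ?_
  rw [Finset.card_product, Int.card_Icc, Int.card_Icc, sq]
  apply le_of_eq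
  congr 1 <;> omega

/-! ## 2. Euclidean triangle inequality -/

/-- the Euclidean distance. -/
noncomputable def hgE (z w : ℝ × ℝ) : ℝ := Real.sqrt (sqDist z w)

theorem hgE_eqns_cite (z w : ℝ × ℝ) : hgE z w = Real.sqrt (sqDist z w) := rfl

theorem hg_E_nonneg (z w : ℝ × ℝ) : 0 ≤ hgE z w := Real.sqrt_nonneg _

theorem hg_E_sq (z w : ℝ × ℝ) : hgE z w ^ 2 = sqDist z w := Real.sq_sqrt (hg_sqDist_nonneg z w)

theorem hg_E_comm (z w : ℝ × ℝ) : hgE z w = hgE w z := by unfold hgE; rw [hg_sqDist_comm]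

theorem hg_E_le_iff {z w : ℝ × ℝ} {r : ℝ} (hr : 0 ≤ r) : hgE z w ≤ r ↔ sqDist z w ≤ r ^ 2 := by
  unfold hgE; exact Real.sqrt_le_left hr

theorem hg_E_triangle (a b c : ℝ × ℝ) : hgE a c ≤ hgE a b + hgE b c := by
  have hp := hg_E_nonneg a b
  have hq := hg_E_nonneg b c
  rw [hg_E_le_iff (add_nonneg hp hq)]
  have h1 := hg_E_sq a b
  have h2 := hg_E_sq b c
  set p := hgE a b
  set q := hgE b c
  unfold sqDist at *
  set x1 := a.1 - b.1
  set y1 := a.2 - b.2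
  set x2 := b.1 - c.1
  set y2 := b.2 - c.2
  have e1 : a.1 - c.1 = x1 + x2 := by simp only [x1, x2]; ring
  have e2 : a.2 - c.2 = y1 + y2 := by simp only [y1, y2]; ring
  rw [e1, e2]
  have cs : x1 * x2 + y1 * y2 ≤ p * q := by
    apply abs_le_of_sq_le_sq' _ (mul_nonneg hp hq) |>.2
    have : (p * q) ^ 2 = (x1 ^ 2 + y1 ^ 2) * (x2 ^ 2 + y2 ^ 2) := by rw [mul_pow, h1, h2]
    rw [this]
    nlinarith [sq_nonneg (x1 * y2 - y1 * x2)]
  nlinarith

theorem hg_dist_le_E (z w : ℝ × ℝ) : dist z w ≤ hgE z w := by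
  have h := hg_dist_sq_le_sqDist z w
  rw [← hg_E_sq] at h
  exact abs_le_of_sq_le_sq' h (hg_E_nonneg z w) |>.2

theorem hg_E_face {δ : ℝ} (hδ : 0 < δ) {u : TV} {z : ℝ × ℝ} (hz : z ∈ hexFace δ u) :
    hgE z (triPos δ u) ≤ δ / Real.sqrt 3 := by
  have hs : 0 < Real.sqrt 3 := Real.sqrt_pos.2 (by norm_num)
  rw [hg_E_le_iff (by positivity), div_pow, Real.sq_sqrt (by norm_num)]
  exact hg_hexFace_sqDist_le hδ hz

theorem hg_E_face_le {δ : ℝ} (hδ : 0 < δ) {u : TV} {z : ℝ × ℝ} (hz : z ∈ hexFace δ u) :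
    hgE z (triPos δ u) ≤ δ := by
  rw [hg_E_le_iff hδ.le]
  have := hg_hexFace_sqDist_le hδ hz
  nlinarith [sq_nonneg δ]

theorem hg_E_le_latN {δ : ℝ} (hδ : 0 < δ) (u v : TV) :
    hgE (triPos δ u) (triPos δ v) ≤ δ * latN (u - v) := by
  rw [hg_E_le_iff (by positivity), mul_pow]
  exact hg_sqDist_le_latN δ u v

theorem hg_latN_le_E {δ : ℝ} (_hδ : 0 < δ) (u v : TV) :
    δ * latN (u - v) ≤ 2 / Real.sqrt 3 * hgE (triPos δ u) (triPos δ v) := by
  have hs : 0 < Real.sqrt 3 := Real.sqrt_pos.2 (by norm_num)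
  apply abs_le_of_sq_le_sq' _ (mul_nonneg (by positivity) (hg_E_nonneg _ _)) |>.2
  rw [mul_pow, mul_pow, hg_E_sq, div_pow, Real.sq_sqrt (by norm_num)]
  have := hg_latN_le_sqDist δ u v
  nlinarith

/-! ## 3. hexagons of faces inside / not inside `F n` ([FRZ] (b) in the vocabulary of `Defs/Lat`) -/

theorem hg_latN_add_le (a b : TV) : latN (a + b) ≤ latN a + latN b := by
  obtain ⟨a1, a2, a3, -⟩ := hg_latN_spec a
  obtain ⟨b1, b2, b3, -⟩ := hg_latN_spec b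
  obtain ⟨-, -, -, h⟩ := hg_latN_spec (a + b)
  have key : (latN (a + b) : ℤ) ≤ (latN a : ℤ) + (latN b : ℤ) := by
    rcases h with h | h | h <;> rw [h] <;> simp only [Prod.fst_add, Prod.snd_add]
    · exact (abs_add_le _ _).trans (add_le_add a1 b1)
    · exact (abs_add_le _ _).trans (add_le_add a2 b2)
    · have e : a.1 + b.1 + (a.2 + b.2) = (a.1 + a.2) + (b.1 + b.2) := by ring
      rw [e]
      exact (abs_add_le _ _).trans (add_le_add a3 b3)
  exact_mod_cast key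

theorem hg_latN_dir {d : TV} (hd : d ∈ latDirs) : latN d = 1 := by
  revert d; decide

theorem hg_latBall_mono (c : TV) {r s : ℕ} (h : r ≤ s) : latBall c r ⊆ latBall c s := by
  intro u hu
  rw [lat_mem_ball] at hu ⊢
  exact hu.trans h

theorem hg_center_mem_latBall (c : TV) (r : ℕ) : c ∈ latBall c r := by
  rw [lat_mem_ball, sub_self]
  exact Nat.zero_le _

/-- a hexagon inside `F` with one more layer is inside the interior of `F`. -/
theorem hg_latBall_subset_latInt {F : Finset TV} {c : TV} {r : ℕ} (h : latBall c (r + 1) ⊆ F) :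
    latBall c r ⊆ latInt F := by
  intro u hu
  rw [lat_mem_int]
  refine ⟨h (hg_latBall_mono c (Nat.le_succ r) hu), fun v hv => h ?_⟩
  rw [lat_mem_ball] at hu ⊢
  have h1 : v - c = (u - c) + (v - u) := by abel
  rw [h1]
  have h2 := hg_latN_add_le (u - c) (v - u)
  rw [hg_latN_dir ((lat_adj_iff u v).1 hv)] at h2
  omega

/-- **hexagons of macroscopic radius about the faces meeting a compact subset of `D` lie in
`F n`.** -/
theorem hg_latBall_subset {D : Set (ℝ × ℝ)} (hDo : IsOpen D) {δ : ℕ → ℝ}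
    {F : ℕ → Finset (ℤ × ℤ)} (h : IsInsideApprox D δ F) {K : Set (ℝ × ℝ)} (hK : IsCompact K)
    (hKD : K ⊆ D) :
    ∃ c : ℝ, 0 < c ∧ ∀ᶠ n in atTop, ∀ u : TV, (hexFace (δ n) u ∩ K).Nonempty →
      ∀ N : ℕ, (N : ℝ) * δ n ≤ c → latBall u N ⊆ F n := by
  obtain ⟨c, hc, h1⟩ := hg_lattice_ball_subset hDo h hK hKD
  refine ⟨c, hc, ?_⟩
  filter_upwards [h1] with n hn u hu N hN v hv
  apply hn u hu v
  rw [lat_mem_ball] at hv
  have hδ := h.1 n
  have h2 := hg_sqDist_le_latN 1 v u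
  have h3 : (latN (v - u) : ℝ) ≤ N := by exact_mod_cast hv
  have h4 : (N : ℝ) ≤ c / δ n := by rw [le_div_iff₀ hδ]; exact hN
  have h5 : (latN (v - u) : ℝ) ^ 2 ≤ (c / δ n) ^ 2 :=
    pow_le_pow_left₀ (Nat.cast_nonneg _) (h3.trans h4) 2
  linarith

/-- same with the interior of `F n`. -/
theorem hg_latBall_subset_int {D : Set (ℝ × ℝ)} (hDo : IsOpen D) {δ : ℕ → ℝ}
    {F : ℕ → Finset (ℤ × ℤ)} (h : IsInsideApprox D δ F) {K : Set (ℝ × ℝ)} (hK : IsCompact K)
    (hKD : K ⊆ D) :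
    ∃ c : ℝ, 0 < c ∧ ∀ᶠ n in atTop, ∀ u : TV, (hexFace (δ n) u ∩ K).Nonempty →
      ∀ N : ℕ, ((N : ℝ) + 1) * δ n ≤ c → latBall u N ⊆ latInt (F n) := by
  obtain ⟨c, hc, h1⟩ := hg_latBall_subset hDo h hK hKD
  refine ⟨c, hc, ?_⟩
  filter_upwards [h1] with n hn u hu N hN
  exact hg_latBall_subset_latInt (hn u hu (N + 1) (by push_cast; exact hN))

/-- **no hexagon of radius `≥ R / δ n` fits in `F n`.** -/
theorem hg_latBall_not_subset {D : Set (ℝ × ℝ)} (hDb : Bornology.IsBounded D) {δ : ℕ → ℝ}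
    {F : ℕ → Finset (ℤ × ℤ)} (h : IsInsideApprox D δ F) :
    ∃ R : ℝ, 0 < R ∧ ∀ n, ∀ u : TV, ∀ N : ℕ, R ≤ (N : ℝ) * δ n → ¬ latBall u N ⊆ F n := by
  obtain ⟨R, hR, h1⟩ := hg_lattice_ball_not_subset hDb h
  refine ⟨2 * R, by positivity, fun n u N hN hsub => ?_⟩
  obtain ⟨v, hv1, hv2⟩ := h1 n u
  apply hv2
  apply hsub
  rw [lat_mem_ball]
  have hδ := h.1 n
  have h2 := hg_latN_le_sqDist 1 v u
  have h4 : 2 * (R / δ n) ≤ N := by
    rw [← mul_div_assoc, div_le_iff₀ hδ]; exact hN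
  have h5 : (0 : ℝ) ≤ R / δ n := by positivity
  have h6 : (latN (v - u) : ℝ) ^ 2 ≤ (N : ℝ) ^ 2 := by
    have : (2 * (R / δ n)) ^ 2 ≤ (N : ℝ) ^ 2 := pow_le_pow_left₀ (by positivity) h4 2
    nlinarith
  have h7 : (latN (v - u) : ℝ) ≤ N := abs_le_of_sq_le_sq' h6 (Nat.cast_nonneg _) |>.2
  exact_mod_cast h7

/-! ## 4. the support of the face weights -/

/-- a face meeting the closed Euclidean disc of radius `r` about a point of the face `u0` is within
`(2 r + 2 δ)/δ` lattice steps of `u0`. -/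
theorem hg_face_meets_disc {δ : ℝ} (hδ : 0 < δ) {u u0 : TV} {z y : ℝ × ℝ} {r : ℝ} (hr : 0 ≤ r)
    (hz : z ∈ hexFace δ u0) (hy : y ∈ hexFace δ u) (hyz : sqDist y z ≤ r ^ 2) :
    δ * latN (u - u0) ≤ 2 * r + 2 * δ := by
  have hs : 0 < Real.sqrt 3 := Real.sqrt_pos.2 (by norm_num)
  have s3 := hg_sqrt3_sq
  have h1 := hg_latN_le_E hδ u u0
  have h2 := hg_E_triangle (triPos δ u) y (triPos δ u0)
  have h3 := hg_E_triangle y z (triPos δ u0)
  have h4 := hg_E_face hδ hy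
  have h5 := hg_E_face hδ hz
  have h6 := (hg_E_le_iff hr).2 hyz
  rw [hg_E_comm] at h4
  have h7 : hgE (triPos δ u) (triPos δ u0) ≤ r + 2 * (δ / Real.sqrt 3) := by linarith
  have h8 : 2 / Real.sqrt 3 * hgE (triPos δ u) (triPos δ u0)
      ≤ 2 / Real.sqrt 3 * (r + 2 * (δ / Real.sqrt 3)) :=
    mul_le_mul_of_nonneg_left h7 (by positivity)
  have h9 : 2 / Real.sqrt 3 * (r + 2 * (δ / Real.sqrt 3)) = 2 / Real.sqrt 3 * r + 4 / 3 * δ := by
    field_simp
    nlinarith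
  have h10 : 2 / Real.sqrt 3 ≤ 2 := by
    rw [div_le_iff₀ hs]
    have : (1 : ℝ) ≤ Real.sqrt 3 := by
      rw [show (1 : ℝ) = Real.sqrt 1 by simp]; exact Real.sqrt_le_sqrt (by norm_num)
    linarith
  have h11 : 2 / Real.sqrt 3 * r ≤ 2 * r := mul_le_mul_of_nonneg_right h10 hr
  linarith

/-- the face weight vanishes if the function vanishes on the face. -/
theorem hg_latW_eq_zero {δ : ℝ} {g : ℝ × ℝ → ℝ} {u : TV} (h : ∀ y ∈ hexFace δ u, g y = 0) :
    latW δ g u = 0 := setIntegral_eq_zero_of_forall_eq_zero h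

/-- **support of the face weights of a function supported in a disc.** -/
theorem hg_latW_support {δ : ℝ} (hδ : 0 < δ) {g : ℝ × ℝ → ℝ} {z : ℝ × ℝ} {r : ℝ} (hr : 0 ≤ r)
    (hg : ∀ y, r ^ 2 < sqDist y z → g y = 0) {u0 : TV} (hz : z ∈ hexFace δ u0) {a : ℕ}
    (ha : 2 * r + 2 * δ ≤ a * δ) {u : TV} (hu : u ∉ latBall u0 a) : latW δ g u = 0 := by
  apply hg_latW_eq_zero
  intro y hy
  apply hg
  by_contra hc
  push Not at hc
  apply hu
  rw [lat_mem_ball]
  have h1 := hg_face_meets_disc hδ hr hz hy hc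
  have h2 : δ * (latN (u - u0) : ℝ) ≤ δ * a := by linarith
  have h3 : (latN (u - u0) : ℝ) ≤ a := le_of_mul_le_mul_left h2 hδ
  exact_mod_cast h3

theorem hg_abs_latW_le {δ : ℝ} (hδ : 0 < δ) (u : TV) {g : ℝ × ℝ → ℝ} {M : ℝ}
    (hM : ∀ z, |g z| ≤ M) : |latW δ g u| ≤ M * (Real.sqrt 3 / 2 * δ ^ 2) :=
  hg_abs_face_integral_le' hδ u fun z _ => hM z

/-- the pairing only sees the hexagon that carries the weights. -/
theorem hg_latPair_eq {δ : ℝ} (hδ : 0 < δ) {g : ℝ × ℝ → ℝ} {z : ℝ × ℝ} {r : ℝ} (hr : 0 ≤ r)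
    (hg : ∀ y, r ^ 2 < sqDist y z → g y = 0) {u0 : TV} (hz : z ∈ hexFace δ u0) {a : ℕ}
    (ha : 2 * r + 2 * δ ≤ a * δ) {A : Finset TV} (hA : latBall u0 a ⊆ A) (h : TV → ℤ) :
    latPair δ g A h = ∑ u ∈ latBall u0 a, latW δ g u * (h u : ℝ) := by
  unfold latPair
  symm
  apply Finset.sum_subset hA
  intro u _ hu
  rw [hg_latW_support hδ hr hg hz ha hu, zero_mul]

/-- **exact total of the weights.** -/
theorem hg_sum_latW_eq {δ : ℝ} (hδ : 0 < δ) {g : ℝ × ℝ → ℝ} (hgi : Integrable g) {z : ℝ × ℝ} {r : ℝ}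
    (hr : 0 ≤ r) (hg : ∀ y, r ^ 2 < sqDist y z → g y = 0) {u0 : TV} (hz : z ∈ hexFace δ u0) {a : ℕ}
    (ha : 2 * r + 2 * δ ≤ a * δ) : ∑ u ∈ latBall u0 a, latW δ g u = ∫ y, g y := by
  apply hg_sum_face_integral_eq' hδ (latBall u0 a) hgi
  intro y hy
  apply hg
  by_contra hc
  push Not at hc
  apply hy
  obtain ⟨u, hu⟩ := hg_cover hδ y
  refine hg_mem_U.2 ⟨u, ?_, hu⟩
  rw [Finset.mem_coe, lat_mem_ball]
  have h1 := hg_face_meets_disc hδ hr hz hu hc
  have h2 : δ * (latN (u - u0) : ℝ) ≤ δ * a := by linarith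
  have h3 : (latN (u - u0) : ℝ) ≤ a := le_of_mul_le_mul_left h2 hδ
  exact_mod_cast h3

/-- the total of the weights over any finite set containing the faces that meet the support. -/
theorem hg_sum_latW_eq_of_meets {δ : ℝ} (hδ : 0 < δ) {g : ℝ × ℝ → ℝ} (hgi : Integrable g)
    {A : Finset TV} (hA : ∀ u, (hexFace δ u ∩ Function.support g).Nonempty → u ∈ A) :
    ∑ u ∈ A, latW δ g u = ∫ y, g y := by
  apply hg_sum_face_integral_eq' hδ A hgi
  intro y hy
  by_contra hc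
  obtain ⟨u, hu⟩ := hg_cover hδ y
  exact hy (hg_mem_U.2 ⟨u, hA u ⟨y, hu, hc⟩, hu⟩)

/-! ## 5. lattice symmetries acting on the faces and on the weights -/

/-- a Euclidean isometry that maps the lattice onto itself permutes the faces. -/
theorem hg_hexFace_equivariant {δ : ℝ} {T : ℝ × ℝ → ℝ × ℝ} {τ : TV → TV}
    (hτ : Function.Surjective τ) (hT : ∀ z w, sqDist (T z) (T w) = sqDist z w)
    (hTτ : ∀ u, T (triPos δ u) = triPos δ (τ u)) (z : ℝ × ℝ) (u : TV) :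
    T z ∈ hexFace δ (τ u) ↔ z ∈ hexFace δ u := by
  constructor
  · intro h v
    have := h (τ v)
    rwa [← hTτ, ← hTτ, hT, hT] at this
  · intro h v'
    obtain ⟨v, rfl⟩ := hτ v'
    rw [← hTτ, ← hTτ, hT, hT]
    exact h v

/-- transformation of the weights. -/
theorem hg_latW_comp {δ : ℝ} {T : ℝ × ℝ → ℝ × ℝ} (hTm : MeasurePreserving T volume volume)
    (hTe : MeasurableEmbedding T) {τ : TV → TV}
    (hmem : ∀ z u, T z ∈ hexFace δ (τ u) ↔ z ∈ hexFace δ u) (g : ℝ × ℝ → ℝ) (u : TV) :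
    latW δ (fun z => g (T z)) u = latW δ g (τ u) := by
  unfold latW
  rw [← hTm.setIntegral_preimage_emb hTe g (hexFace δ (τ u))]
  congr 2
  ext z
  exact (hmem z u).symm

theorem hg_triPos_add (δ : ℝ) (u d : TV) : triPos δ (u + d) = triPos δ u + triPos δ d := by
  unfold triPos
  ext <;> simp <;> ring

/-- **translations.** -/
theorem hg_mem_hexFace_add (δ : ℝ) (d : TV) (z : ℝ × ℝ) (u : TV) :
    z + triPos δ d ∈ hexFace δ (u + d) ↔ z ∈ hexFace δ u :=
  hg_hexFace_equivariant (T := fun z => z + triPos δ d) (τ := fun u => u + d)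
    (fun v => ⟨v - d, by simp⟩) (fun z w => by unfold sqDist; simp)
    (fun u => (hg_triPos_add δ u d).symm) z u

theorem hg_latW_add (δ : ℝ) (d : TV) (g : ℝ × ℝ → ℝ) (u : TV) :
    latW δ (fun z => g (z + triPos δ d)) u = latW δ g (u + d) :=
  hg_latW_comp (T := fun z => z + triPos δ d) (τ := fun u => u + d)
    (measurePreserving_add_right volume (triPos δ d)) (measurableEmbedding_addRight (triPos δ d))
    (hg_mem_hexFace_add δ d) g u

/-- reflection in the horizontal axis. -/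
def hgRefl (z : ℝ × ℝ) : ℝ × ℝ := (z.1, -z.2)

theorem hgRefl_eqns_cite (z : ℝ × ℝ) : hgRefl z = (z.1, -z.2) := rfl

theorem hg_refl_triPos (δ : ℝ) (u : TV) : hgRefl (triPos δ u) = triPos δ (latRefl u) := by
  unfold hgRefl triPos latRefl
  simp only [Prod.mk.injEq]
  push_cast
  constructor <;> ring

theorem hg_refl_sqDist (z w : ℝ × ℝ) : sqDist (hgRefl z) (hgRefl w) = sqDist z w := by
  unfold sqDist hgRefl; simp only; ring

/-- **reflection.** -/
theorem hg_mem_hexFace_refl (δ : ℝ) (z : ℝ × ℝ) (u : TV) :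
    hgRefl z ∈ hexFace δ (latRefl u) ↔ z ∈ hexFace δ u :=
  hg_hexFace_equivariant (fun v => ⟨latRefl v, lat_refl_refl v⟩) hg_refl_sqDist
    (hg_refl_triPos δ) z u

theorem hg_refl_measurePreserving : MeasurePreserving hgRefl volume volume := by
  have h := (MeasurePreserving.id (volume : Measure ℝ)).prod (Measure.measurePreserving_neg (volume : Measure ℝ))
  exact h

theorem hg_refl_measurableEmbedding : MeasurableEmbedding hgRefl := by
  have h : hgRefl = (Homeomorph.prodCongr (Homeomorph.refl ℝ) (Homeomorph.neg ℝ)) := by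
    ext z <;> simp [hgRefl]
  rw [h]
  exact (Homeomorph.prodCongr (Homeomorph.refl ℝ) (Homeomorph.neg ℝ)).measurableEmbedding

theorem hg_latW_refl (δ : ℝ) (g : ℝ × ℝ → ℝ) (u : TV) :
    latW δ (fun z => g (hgRefl z)) u = latW δ g (latRefl u) :=
  hg_latW_comp hg_refl_measurePreserving hg_refl_measurableEmbedding (hg_mem_hexFace_refl δ) g u

/-- rotation by 60 degrees about the origin, as a linear map. -/
noncomputable def hgRotL : (ℝ × ℝ) →ₗ[ℝ] (ℝ × ℝ) :=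
  Matrix.toLin (Module.Basis.finTwoProd ℝ) (Module.Basis.finTwoProd ℝ)
    !![1 / 2, -(Real.sqrt 3 / 2); Real.sqrt 3 / 2, 1 / 2]

theorem hgRotL_eqns_cite : hgRotL = Matrix.toLin (Module.Basis.finTwoProd ℝ) (Module.Basis.finTwoProd ℝ)
    !![1 / 2, -(Real.sqrt 3 / 2); Real.sqrt 3 / 2, 1 / 2] := rfl

theorem hg_rot_apply (z : ℝ × ℝ) :
    hgRotL z = (1 / 2 * z.1 + -(Real.sqrt 3 / 2) * z.2, Real.sqrt 3 / 2 * z.1 + 1 / 2 * z.2) := by
  unfold hgRotL
  rw [Matrix.toLin_finTwoProd_apply]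

theorem hg_rot_det : LinearMap.det hgRotL = 1 := by
  unfold hgRotL
  rw [LinearMap.det_toLin, Matrix.det_fin_two_of]
  nlinarith [hg_sqrt3_sq]

theorem hg_rot_triPos (δ : ℝ) (u : TV) : hgRotL (triPos δ u) = triPos δ (latRot u) := by
  rw [hg_rot_apply]
  unfold triPos latRot
  simp only [Prod.mk.injEq]
  push_cast
  constructor
  · linear_combination (-(δ * (u.2 : ℝ)) / 4) * hg_sqrt3_sq
  · ring

theorem hg_rot_sqDist (z w : ℝ × ℝ) : sqDist (hgRotL z) (hgRotL w) = sqDist z w := by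
  rw [hg_rot_apply, hg_rot_apply]
  unfold sqDist
  simp only
  linear_combination (((z.1 - w.1) ^ 2 + (z.2 - w.2) ^ 2) / 4) * hg_sqrt3_sq

theorem hg_latRot_surjective : Function.Surjective latRot := fun v =>
  ⟨latRot (latRot (latRot (latRot (latRot v)))), lat_rot_six v⟩

/-- **rotation by 60 degrees.** -/
theorem hg_mem_hexFace_rot (δ : ℝ) (z : ℝ × ℝ) (u : TV) :
    hgRotL z ∈ hexFace δ (latRot u) ↔ z ∈ hexFace δ u :=
  hg_hexFace_equivariant hg_latRot_surjective hg_rot_sqDist (hg_rot_triPos δ) z u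

theorem hg_rot_measurePreserving : MeasurePreserving hgRotL volume volume := by
  refine ⟨hgRotL.continuous_of_finiteDimensional.measurable, ?_⟩
  rw [Measure.map_linearMap_addHaar_eq_smul_addHaar volume (by rw [hg_rot_det]; norm_num),
    hg_rot_det]
  simp

theorem hg_rot_measurableEmbedding : MeasurableEmbedding hgRotL := by
  have hdet : LinearMap.det hgRotL ≠ 0 := by rw [hg_rot_det]; norm_num
  have h : (hgRotL : ℝ × ℝ → ℝ × ℝ) = (LinearEquiv.ofIsUnitDet (f := hgRotL)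
      (v := Module.Basis.finTwoProd ℝ) (v' := Module.Basis.finTwoProd ℝ) (by
        rw [← LinearMap.det_toMatrix (Module.Basis.finTwoProd ℝ) hgRotL] at hdet
        exact isUnit_iff_ne_zero.2 hdet)).toContinuousLinearEquiv.toHomeomorph := by
    ext z <;> rfl
  rw [h]
  exact Homeomorph.measurableEmbedding _

theorem hg_latW_rot (δ : ℝ) (g : ℝ × ℝ → ℝ) (u : TV) :
    latW δ (fun z => g (hgRotL z)) u = latW δ g (latRot u) :=
  hg_latW_comp hg_rot_measurePreserving hg_rot_measurableEmbedding (hg_mem_hexFace_rot δ) g u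

/-! ## 6. scaling to lattice units -/

theorem hg_triPos_smul (δ : ℝ) (u : TV) : triPos δ u = δ • triPos 1 u := by
  unfold triPos
  ext <;> simp

theorem hg_sqDist_smul (δ : ℝ) (z w : ℝ × ℝ) : sqDist (δ • z) (δ • w) = δ ^ 2 * sqDist z w := by
  unfold sqDist
  simp only [Prod.smul_fst, Prod.smul_snd, smul_eq_mul]
  ring

/-- **scaling.** -/
theorem hg_mem_hexFace_smul {δ : ℝ} (hδ : 0 < δ) (z : ℝ × ℝ) (u : TV) :
    δ • z ∈ hexFace δ u ↔ z ∈ hexFace 1 u := by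
  have hd : 0 < δ ^ 2 := by positivity
  constructor
  · intro h v
    have := h v
    rw [hg_triPos_smul δ u, hg_triPos_smul δ v, hg_sqDist_smul, hg_sqDist_smul] at this
    exact le_of_mul_le_mul_left this hd
  · intro h v
    rw [hg_triPos_smul δ u, hg_triPos_smul δ v, hg_sqDist_smul, hg_sqDist_smul]
    exact mul_le_mul_of_nonneg_left (h v) hd.le

theorem hg_hexFace_eq_smul {δ : ℝ} (hδ : 0 < δ) (u : TV) : hexFace δ u = δ • hexFace 1 u := by
  ext z
  rw [mem_smul_set_iff_inv_smul_mem₀ hδ.ne', ← hg_mem_hexFace_smul hδ, smul_inv_smul₀ hδ.ne']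

theorem hg_latW_scale {δ : ℝ} (hδ : 0 < δ) (g : ℝ × ℝ → ℝ) (u : TV) :
    latW δ g u = δ ^ 2 * latW 1 (fun z => g (δ • z)) u := by
  unfold latW
  rw [Measure.setIntegral_comp_smul_of_pos volume g (hexFace 1 u) hδ, ← hg_hexFace_eq_smul hδ]
  have : Module.finrank ℝ (ℝ × ℝ) = 2 := by simp
  rw [this, smul_eq_mul, ← mul_assoc, mul_inv_cancel₀ (by positivity), one_mul]

end Claimed.Agent.R291
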